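import Mathlib
import Vale.Agent.Common.PrekopaLeindler

/-! Gaussian states with log-concave cutoffs. -/

namespace Vale.Agent.P262

open MeasureTheory Finset
open scoped InnerProductSpace

/-- Euclidean space. -/
abbrev E (n : ℕ) := EuclideanSpace ℝ (Fin n)

variable {n : ℕ}

/-- The Gaussian weight. -/
noncomputable def gam (x : E n) : ℝ := Real.exp (-‖x‖ ^ 2)

lemma gam_pos (x : E n) : 0 < gam x := Real.exp_pos _

lemma gam_cont : Continuous (gam : E n → ℝ) := by
  unfold gam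
  fun_prop

lemma gam_integrable : Integrable (gam : E n → ℝ) := by
  have := (GaussianFourier.integrable_cexp_neg_mul_sq_norm_add (V := E n) (b := 1) (by simp) 0
    0).norm
  refine this.congr (Filter.Eventually.of_forall fun x => ?_)
  simp only [gam, Complex.norm_exp]
  congr 1
  simp [← Complex.ofReal_pow]

/-- Even, bounded, continuous, midpoint log-concave weights. -/
structure LC (h : E n → ℝ) : Prop where
  cont : Continuous h
  nonneg : ∀ x, 0 ≤ h x
  le_one : ∀ x, h x ≤ 1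
  even : ∀ x, h (-x) = h x
  mid : ∀ x y, h x * h y ≤ h ((1 / 2 : ℝ) • (x + y)) ^ 2

lemma LC.one : LC (fun _ : E n => (1 : ℝ)) :=
  ⟨continuous_const, by simp, by simp, by simp, by simp⟩

lemma LC.mul {g h : E n → ℝ} (hg : LC g) (hh : LC h) : LC (fun x => g x * h x) := by
  refine ⟨hg.cont.mul hh.cont, fun x => mul_nonneg (hg.nonneg x) (hh.nonneg x),
    fun x => mul_le_one₀ (hg.le_one x) (hh.nonneg x) (hh.le_one x),
    fun x => by rw [hg.even, hh.even], fun x y => ?_⟩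
  rw [mul_mul_mul_comm, mul_pow]
  exact mul_le_mul (hg.mid x y) (hh.mid x y) (mul_nonneg (hh.nonneg x) (hh.nonneg y))
    (sq_nonneg _)

lemma LC.prod {ι : Type*} (s : Finset ι) {g : ι → E n → ℝ} (hg : ∀ i, LC (g i)) :
    LC (fun x => ∏ i ∈ s, g i x) := by
  classical
  induction s using Finset.induction_on with
  | empty => simpa using LC.one
  | insert a s ha ih =>
    simp_rw [prod_insert ha]
    exact (hg a).mul ih

lemma LC.integrable_shift {h : E n → ℝ} (hh : LC h) (θ : E n) :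
    Integrable (fun x => gam (x + θ) * h x) := by
  refine (gam_integrable.comp_add_right θ).mono'
    ((gam_cont.comp (continuous_add_const θ)).mul hh.cont).aestronglyMeasurable
    (Filter.Eventually.of_forall fun x => ?_)
  rw [Real.norm_eq_abs, abs_of_nonneg (mul_nonneg (gam_pos _).le (hh.nonneg _))]
  exact mul_le_of_le_one_right (gam_pos _).le (hh.le_one x)

lemma LC.integrable {h : E n → ℝ} (hh : LC h) : Integrable (fun x => gam x * h x) := by
  simpa using hh.integrable_shift 0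

lemma LC.shift_le {h : E n → ℝ} (hh : LC h) (θ : E n) :
    ∫ x, gam (x + θ) * h x ≤ ∫ x, gam x * h x := by
  have sym : ∫ x, gam (x + -θ) * h x = ∫ x, gam (x + θ) * h x := by
    rw [← integral_neg_eq_self]
    refine integral_congr_ae (Filter.Eventually.of_forall fun x => ?_)
    simp only [hh.even, gam]
    rw [← neg_add, norm_neg]
  have meas : ∀ θ : E n, Measurable fun x => ENNReal.ofReal (gam (x + θ) * h x) := fun θ =>
    ((gam_cont.comp (continuous_add_const θ)).mul hh.cont).measurable.ennreal_ofReal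
  have nn : ∀ θ x : E n, 0 ≤ gam (x + θ) * h x := fun θ x =>
    mul_nonneg (gam_pos _).le (hh.nonneg _)
  have key := Vale.Agent.Common.pl_euclidean n _ _ _ (meas θ) (meas (-θ)) (meas 0) (by
    intro x y
    rw [← ENNReal.ofReal_mul (nn _ _), ← ENNReal.ofReal_pow (nn _ _)]
    refine ENNReal.ofReal_le_ofReal ?_
    rw [mul_mul_mul_comm, mul_pow]
    refine mul_le_mul ?_ (hh.mid x y) (mul_nonneg (hh.nonneg x) (hh.nonneg y)) (sq_nonneg _)
    simp only [gam, add_zero]
    rw [← Real.exp_add, ← Real.exp_nat_mul, Real.exp_le_exp]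
    have e : x + y = (x + θ) + (y + -θ) := by abel
    rw [e, norm_smul]
    have := parallelogram_law_with_norm ℝ (x + θ) (y + -θ)
    simp only [Real.norm_eq_abs, abs_of_pos (show (0 : ℝ) < 1 / 2 by norm_num)]
    push_cast
    nlinarith [sq_nonneg ‖x + θ - (y + -θ)‖])
  have conv : ∀ θ : E n, ∫⁻ x, ENNReal.ofReal (gam (x + θ) * h x)
      = ENNReal.ofReal (∫ x, gam (x + θ) * h x) := fun θ =>
    (ofReal_integral_eq_lintegral_ofReal (hh.integrable_shift θ)
      (Filter.Eventually.of_forall (nn θ))).symm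
  rw [conv, conv, conv, sym, ← sq] at key
  have n0 : 0 ≤ ∫ x, gam (x + 0) * h x := integral_nonneg (nn 0)
  have n1 : 0 ≤ ∫ x, gam (x + θ) * h x := integral_nonneg (nn θ)
  rw [← ENNReal.ofReal_pow n0, ← ENNReal.ofReal_pow n1,
    ENNReal.ofReal_le_ofReal_iff (sq_nonneg _)] at key
  have := (pow_le_pow_iff_left₀ n1 n0 (by norm_num)).1 key
  simpa using this

lemma exp_add_exp_neg (s : ℝ) : 2 + s ^ 2 / 2 ≤ Real.exp s + Real.exp (-s) := by
  rcases le_total 0 s with h | h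
  · have := Real.quadratic_le_exp_of_nonneg h
    have := Real.add_one_le_exp (-s)
    linarith
  · have := Real.quadratic_le_exp_of_nonneg (neg_nonneg.2 h)
    have := Real.add_one_le_exp s
    nlinarith

lemma gam_unit (θ x : E n) (hθ : ‖θ‖ = 1) :
    gam x * (2 + 2 * ⟪θ, x⟫_ℝ ^ 2) ≤ 3 * (gam (x + θ) + gam (x + -θ)) := by
  have e1 : gam (x + θ) = gam x * Real.exp (-1) * Real.exp (-(2 * ⟪θ, x⟫_ℝ)) := by
    simp only [gam, ← Real.exp_add]
    rw [norm_add_sq_real, hθ, real_inner_comm]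
    congr 1
    ring
  have e2 : gam (x + -θ) = gam x * Real.exp (-1) * Real.exp (2 * ⟪θ, x⟫_ℝ) := by
    simp only [gam, ← Real.exp_add]
    rw [norm_add_sq_real, norm_neg, hθ, inner_neg_right, real_inner_comm]
    congr 1
    ring
  have h3 : 1 ≤ 3 * Real.exp (-1) := by
    rw [Real.exp_neg, ← div_eq_mul_inv, le_div_iff₀ (Real.exp_pos _)]
    linarith [Real.exp_one_lt_d9]
  have h4 := exp_add_exp_neg (2 * ⟪θ, x⟫_ℝ)
  rw [e1, e2]
  have g := gam_pos x
  have h5 : 0 ≤ 2 + 2 * ⟪θ, x⟫_ℝ ^ 2 := by positivity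
  calc gam x * (2 + 2 * ⟪θ, x⟫_ℝ ^ 2)
      ≤ gam x * ((3 * Real.exp (-1)) * (2 + 2 * ⟪θ, x⟫_ℝ ^ 2)) :=
        mul_le_mul_of_nonneg_left (le_mul_of_one_le_left h5 h3) g.le
    _ ≤ gam x * ((3 * Real.exp (-1)) *
        (Real.exp (2 * ⟪θ, x⟫_ℝ) + Real.exp (-(2 * ⟪θ, x⟫_ℝ)))) := by
        refine mul_le_mul_of_nonneg_left (mul_le_mul_of_nonneg_left ?_ (by positivity)) g.le
        linarith
    _ = _ := by ring

lemma LC.cov_unit {h : E n → ℝ} (hh : LC h) (θ : E n) (hθ : ‖θ‖ = 1) :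
    Integrable (fun x => gam x * h x * ⟪θ, x⟫_ℝ ^ 2) ∧
      ∫ x, gam x * h x * ⟪θ, x⟫_ℝ ^ 2 ≤ 2 * ∫ x, gam x * h x := by
  have i1 := hh.integrable_shift θ
  have i2 := hh.integrable_shift (-θ)
  have i0 := hh.integrable
  have i3 : Integrable (fun x => (3 / 2) * (gam (x + θ) * h x)
      + (3 / 2) * (gam (x + -θ) * h x) - gam x * h x) :=
    ((i1.const_mul _).add (i2.const_mul _)).sub i0
  have pt : ∀ x, gam x * h x * ⟪θ, x⟫_ℝ ^ 2 ≤ (3 / 2) * (gam (x + θ) * h x)
      + (3 / 2) * (gam (x + -θ) * h x) - gam x * h x := by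
    intro x
    have := mul_le_mul_of_nonneg_right (gam_unit θ x hθ) (hh.nonneg x)
    linarith
  have I : Integrable (fun x => gam x * h x * ⟪θ, x⟫_ℝ ^ 2) := by
    refine i3.mono' ?_ (Filter.Eventually.of_forall fun x => ?_)
    · have : Continuous fun x : E n => ⟪θ, x⟫_ℝ ^ 2 := by fun_prop
      exact ((gam_cont.mul hh.cont).mul this).aestronglyMeasurable
    · rw [Real.norm_eq_abs,
        abs_of_nonneg (mul_nonneg (mul_nonneg (gam_pos _).le (hh.nonneg _)) (sq_nonneg _))]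
      exact pt x
  refine ⟨I, le_trans (integral_mono I i3 pt) ?_⟩
  have i4 : Integrable (fun x => (3 / 2) * (gam (x + θ) * h x)
      + (3 / 2) * (gam (x + -θ) * h x)) := (i1.const_mul _).add (i2.const_mul _)
  rw [integral_sub i4 i0, integral_add (i1.const_mul _) (i2.const_mul _), integral_const_mul,
    integral_const_mul]
  have := hh.shift_le θ
  have := hh.shift_le (-θ)
  linarith

lemma LC.cov_vec {h : E n → ℝ} (hh : LC h) (a : E n) :
    Integrable (fun x => gam x * h x * ⟪a, x⟫_ℝ ^ 2) ∧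
      ∫ x, gam x * h x * ⟪a, x⟫_ℝ ^ 2 ≤ 2 * ‖a‖ ^ 2 * ∫ x, gam x * h x := by
  by_cases ha : a = 0
  · simp [ha]
  have hn : ‖a‖ ≠ 0 := norm_ne_zero_iff.2 ha
  obtain ⟨i, b⟩ := hh.cov_unit (‖a‖⁻¹ • a) (by rw [norm_smul]; simp [hn])
  have e : ∀ x, gam x * h x * ⟪a, x⟫_ℝ ^ 2
      = ‖a‖ ^ 2 * (gam x * h x * ⟪‖a‖⁻¹ • a, x⟫_ℝ ^ 2) := by
    intro x
    rw [real_inner_smul_left]
    field_simp
  simp_rw [e]
  refine ⟨i.const_mul _, ?_⟩
  rw [integral_const_mul]
  nlinarith [sq_nonneg ‖a‖]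

/-- The `j`-th basis vector. -/
noncomputable def ee (j : Fin n) : E n := EuclideanSpace.single j 1

/-- Weighted squared Hilbert-Schmidt norm. -/
noncomputable def hsw (w : Fin n → ℝ) (M : E n →ₗ[ℝ] E n) : ℝ := ∑ j, w j * ‖M (ee j)‖ ^ 2

/-- Squared Hilbert-Schmidt norm. -/
noncomputable def hs (M : E n →ₗ[ℝ] E n) : ℝ := ∑ j, ‖M (ee j)‖ ^ 2

lemma hs_nonneg (M : E n →ₗ[ℝ] E n) : 0 ≤ hs M := sum_nonneg fun _ _ => sq_nonneg _

lemma expand (x : E n) : x = ∑ j, x j • ee j := by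
  ext i
  simp [ee, Pi.single_apply]

lemma LC.cov {h : E n → ℝ} (hh : LC h) (M : E n →ₗ[ℝ] E n) :
    Integrable (fun x => gam x * h x * ‖M x‖ ^ 2) ∧
      ∫ x, gam x * h x * ‖M x‖ ^ 2 ≤ 2 * hs M * ∫ x, gam x * h x := by
  set a : Fin n → E n := fun i => WithLp.toLp 2 fun j => M (ee j) i with ha
  have e : ∀ x, gam x * h x * ‖M x‖ ^ 2 = ∑ i, gam x * h x * ⟪a i, x⟫_ℝ ^ 2 := by
    intro x
    rw [← mul_sum, EuclideanSpace.real_norm_sq_eq]
    congr 1
    refine sum_congr rfl fun i _ => ?_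
    congr 1
    conv_lhs => rw [expand x]
    simp [ha, PiLp.inner_apply, map_sum]
  have e2 : hs M = ∑ i, ‖a i‖ ^ 2 := by
    simp only [hs, EuclideanSpace.real_norm_sq_eq, ha]
    rw [sum_comm]
  simp_rw [e]
  refine ⟨integrable_finsetSum _ fun i _ => (hh.cov_vec (a i)).1, ?_⟩
  rw [integral_finsetSum _ fun i _ => (hh.cov_vec (a i)).1, e2, mul_sum, sum_mul]
  exact sum_le_sum fun i _ => (hh.cov_vec (a i)).2

end Vale.Agent.P262
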