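import Mathlib
import Vale.Agent.P262.Gauss

/-! The normalised Gaussian state attached to a finite family of quadratic constraints. -/

namespace Vale.Agent.P262

open MeasureTheory Finset
open scoped InnerProductSpace

variable {n : ℕ}

/-- The cutoff attached to a linear map. -/
noncomputable def cut (M : E n →ₗ[ℝ] E n) (x : E n) : ℝ := max 0 (1 - (‖M x‖ ^ 2) ^ 2)

lemma cut_LC (M : E n →ₗ[ℝ] E n) : LC (cut M) := by
  have hM : Continuous M := M.continuous_of_finiteDimensional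
  refine ⟨by unfold cut; fun_prop, fun x => le_max_left _ _,
    fun x => max_le zero_le_one (by nlinarith [sq_nonneg (‖M x‖ ^ 2)]),
    fun x => by simp [cut], fun x y => ?_⟩
  have hm : ‖M ((1 / 2 : ℝ) • (x + y))‖ ≤ (‖M x‖ + ‖M y‖) / 2 := by
    rw [map_smul, map_add, norm_smul, Real.norm_eq_abs, abs_of_pos (by norm_num)]
    linarith [norm_add_le (M x) (M y)]
  have h4 : (‖M ((1 / 2 : ℝ) • (x + y))‖ ^ 2) ^ 2 ≤ ((‖M x‖ ^ 2) ^ 2 + (‖M y‖ ^ 2) ^ 2) / 2 := by
    have h2 : ‖M ((1 / 2 : ℝ) • (x + y))‖ ^ 2 ≤ (‖M x‖ ^ 2 + ‖M y‖ ^ 2) / 2 := by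
      have := pow_le_pow_left₀ (norm_nonneg _) hm 2
      nlinarith [sq_nonneg (‖M x‖ - ‖M y‖)]
    have := pow_le_pow_left₀ (sq_nonneg _) h2 2
    nlinarith [sq_nonneg (‖M x‖ ^ 2 - ‖M y‖ ^ 2)]
  unfold cut
  rcases le_total (1 - (‖M x‖ ^ 2) ^ 2) 0 with h1 | h1
  · rw [max_eq_left h1, zero_mul]
    exact sq_nonneg _
  rcases le_total (1 - (‖M y‖ ^ 2) ^ 2) 0 with h2 | h2
  · rw [max_eq_left h2, mul_zero]
    exact sq_nonneg _
  rw [max_eq_right h1, max_eq_right h2, max_eq_right (by linarith)]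
  have := pow_le_pow_left₀ (a := ((1 - (‖M x‖ ^ 2) ^ 2) + (1 - (‖M y‖ ^ 2) ^ 2)) / 2)
    (b := 1 - (‖M ((1 / 2 : ℝ) • (x + y))‖ ^ 2) ^ 2) (by linarith) (by linarith) 2
  nlinarith [sq_nonneg ((‖M x‖ ^ 2) ^ 2 - (‖M y‖ ^ 2) ^ 2)]

lemma cut_sq_ge (M : E n →ₗ[ℝ] E n) (x : E n) : 1 - 2 * ‖M x‖ ^ 2 ≤ cut M x ^ 2 := by
  unfold cut
  have h0 := sq_nonneg ‖M x‖
  generalize ‖M x‖ ^ 2 = q at *
  rcases le_total q 1 with h | h
  · rw [max_eq_right (by nlinarith)]
    nlinarith [sq_nonneg (q ^ 2)]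
  · nlinarith [sq_nonneg (max 0 (1 - q ^ 2))]

lemma cut_real (q z c : ℝ) (hq : 0 ≤ q) (hz : 0 ≤ z) (hz1 : z ≤ 1) (hc : c ^ 2 ≤ q * z) :
    (max 0 (1 - q ^ 2)) ^ 2 - max 0 (1 - (q + 2 * c + z) ^ 2) * max 0 (1 - (q - 2 * c + z) ^ 2)
      ≤ 76 * q * z + 2 * z ^ 2 := by
  set P := max 0 (1 - (q + 2 * c + z) ^ 2) with hP
  set M := max 0 (1 - (q - 2 * c + z) ^ 2) with hM
  have P0 : 0 ≤ P := le_max_left _ _
  have M0 : 0 ≤ M := le_max_left _ _
  have P1 : 1 - (q + 2 * c + z) ^ 2 ≤ P := le_max_right _ _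
  have M1 : 1 - (q - 2 * c + z) ^ 2 ≤ M := le_max_right _ _
  have qz : 0 ≤ q * z := mul_nonneg hq hz
  rcases le_total 1 q with h | h
  · rw [max_eq_left (by nlinarith)]
    nlinarith [mul_nonneg P0 M0, sq_nonneg z]
  rw [max_eq_right (by nlinarith)]
  have hd : |P - M| ≤ |(1 - (q + 2 * c + z) ^ 2) - (1 - (q - 2 * c + z) ^ 2)| := by
    rw [hP, hM, max_comm 0, max_comm 0]
    exact abs_max_sub_max_le_abs _ _ _
  have hd2 : (P - M) ^ 2 ≤ 256 * (q * z) := by
    have := sq_le_sq.2 hd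
    have e : ((1 - (q + 2 * c + z) ^ 2) - (1 - (q - 2 * c + z) ^ 2)) ^ 2
        = 64 * c ^ 2 * (q + z) ^ 2 := by ring
    rw [e] at this
    have h4 : (q + z) ^ 2 ≤ 4 := by nlinarith
    have := mul_le_mul hc h4 (sq_nonneg _) qz
    nlinarith
  have hm : 1 - q ^ 2 - (6 * q * z + z ^ 2) ≤ (P + M) / 2 := by nlinarith
  have hφ : 0 ≤ 1 - q ^ 2 := by nlinarith
  have hφ1 : 1 - q ^ 2 ≤ 1 := by nlinarith
  have he : 0 ≤ 6 * q * z + z ^ 2 := by nlinarith
  have : (1 - q ^ 2) ^ 2 - ((P + M) / 2) ^ 2 ≤ 2 * (6 * q * z + z ^ 2) := by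
    rcases le_total ((P + M) / 2) (1 - q ^ 2) with k | k
    · have e : (1 - q ^ 2) ^ 2 - ((P + M) / 2) ^ 2
          = ((1 - q ^ 2) - (P + M) / 2) * ((1 - q ^ 2) + (P + M) / 2) := by ring
      rw [e, mul_comm]
      exact mul_le_mul (by linarith) (by linarith) (by linarith) (by norm_num)
    · have := pow_le_pow_left₀ hφ k 2
      linarith
  nlinarith

lemma cut_second (M : E n →ₗ[ℝ] E n) (x b : E n) (hb : ‖M b‖ ^ 2 ≤ 1) :
    cut M x ^ 2 - cut M (x + b) * cut M (x + -b)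
      ≤ 76 * ‖M x‖ ^ 2 * ‖M b‖ ^ 2 + 2 * (‖M b‖ ^ 2) ^ 2 := by
  have := cut_real (‖M x‖ ^ 2) (‖M b‖ ^ 2) ⟪M x, M b⟫_ℝ (sq_nonneg _) (sq_nonneg _) hb (by
    rw [← mul_pow, sq_le_sq, abs_of_nonneg (a := ‖M x‖ * ‖M b‖) (by positivity)]
    exact abs_real_inner_le_norm _ _)
  unfold cut
  rw [map_add, map_add, map_neg, ← sub_eq_add_neg, norm_add_sq_real, norm_sub_sq_real]
  exact this

lemma prod_tele {ι : Type*} [DecidableEq ι] (s : Finset ι) (α β : ι → ℝ) (h0 : ∀ i, 0 ≤ β i)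
    (h : ∀ i, β i ≤ α i) :
    ∏ i ∈ s, α i - ∏ i ∈ s, β i ≤ ∑ u ∈ s, (α u - β u) * ∏ i ∈ s.erase u, α i := by
  induction s using Finset.induction_on with
  | empty => simp
  | insert a s ha ih =>
    rw [prod_insert ha, prod_insert ha, sum_insert ha, erase_insert ha]
    have e : ∑ u ∈ s, (α u - β u) * ∏ i ∈ (insert a s).erase u, α i
        = α a * ∑ u ∈ s, (α u - β u) * ∏ i ∈ s.erase u, α i := by
      rw [mul_sum]
      refine sum_congr rfl fun u hu => ?_
      rw [erase_insert_of_ne (by rintro rfl; exact ha hu),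
        prod_insert (fun h => ha (mem_of_mem_erase h))]
      ring
    rw [e]
    have hS : 0 ≤ ∑ u ∈ s, (α u - β u) * ∏ i ∈ s.erase u, α i :=
      sum_nonneg fun u _ => mul_nonneg (sub_nonneg.2 (h u))
        (prod_nonneg fun i _ => le_trans (h0 i) (h i))
    have h1 := mul_le_mul_of_nonneg_left ih (h0 a)
    have h2 := mul_le_mul_of_nonneg_right (h a) hS
    nlinarith

theorem exists_state {ι : Type} [Fintype ι] (M : ι → E n →ₗ[ℝ] E n)
    (hM : ∀ u, hs (M u) ≤ 1 / 8) :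
    ∃ f : E n → ℝ, MemLp f 2 volume ∧ (∀ x, 0 ≤ f x) ∧ ∫ x, f x ^ 2 = 1 ∧
      (∀ x, f x ≠ 0 → ∀ u, ‖M u x‖ ≤ 1) ∧
      ∀ b : E n, (∀ u, ‖M u b‖ ^ 2 ≤ hs (M u)) →
        ∫ x, (f (x + (b + b)) - f x) ^ 2
          ≤ 2 * ‖b‖ ^ 2 + 616 * ∑ u, hs (M u) * ‖M u b‖ ^ 2 := by
  classical
  set h : E n → ℝ := fun x => ∏ u, cut (M u) x with hh
  have hLC : LC h := LC.prod _ fun u => cut_LC (M u)
  have sqLC : ∀ u, LC (fun x => cut (M u) x ^ 2) := fun u => by
    simpa [sq] using (cut_LC (M u)).mul (cut_LC (M u))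
  have h2 : LC (fun x => h x ^ 2) := by simpa [sq] using hLC.mul hLC
  set Z : ℝ := ∫ x, gam x * h x ^ 2 with hZ
  have Zpos : 0 < Z := by
    refine integral_pos_of_integrable_nonneg_nonzero (x := 0) (gam_cont.mul h2.cont)
      h2.integrable (fun x => mul_nonneg (gam_pos x).le (sq_nonneg _)) ?_
    simp [gam, hh, cut]
  set f : E n → ℝ := fun x => Real.exp (-‖x‖ ^ 2 / 2) * h x / √Z with hf
  have fsq : ∀ x, f x ^ 2 = Z⁻¹ * (gam x * h x ^ 2) := by
    intro x
    simp only [hf, div_pow, mul_pow, Real.sq_sqrt Zpos.le, gam]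
    rw [← Real.exp_nat_mul]
    push_cast
    rw [show 2 * (-‖x‖ ^ 2 / 2) = -‖x‖ ^ 2 by ring]
    ring
  have fc : Continuous f := by
    have := hLC.cont
    simp only [hf]
    fun_prop
  have fL : MemLp f 2 volume := by
    rw [memLp_two_iff_integrable_sq fc.aestronglyMeasurable]
    simp_rw [fsq]
    exact h2.integrable.const_mul _
  have f1 : ∫ x, f x ^ 2 = 1 := by
    simp_rw [fsq]
    rw [integral_const_mul, inv_mul_cancel₀ Zpos.ne']
  refine ⟨f, fL, fun x => div_nonneg (mul_nonneg (Real.exp_pos _).le (hLC.nonneg x))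
    (Real.sqrt_nonneg _), f1, fun x hx u => ?_, fun b hb => ?_⟩
  · by_contra hu
    apply hx
    have : cut (M u) x = 0 := by
      refine max_eq_left ?_
      have h1 : 1 ≤ ‖M u x‖ ^ 2 := by nlinarith [not_le.1 hu]
      nlinarith
    simp only [hf, hh]
    rw [prod_eq_zero (mem_univ u) this]
    simp
  -- the energy estimate
  set g : ι → E n → ℝ := fun u x => ∏ i ∈ univ.erase u, cut (M i) x ^ 2 with hg
  have gLC : ∀ u, LC (g u) := fun u => LC.prod _ sqLC
  have Zg : ∀ u, ∫ x, gam x * g u x ≤ 2 * Z := by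
    intro u
    obtain ⟨i1, i2⟩ := (gLC u).cov (M u)
    have i0 := (gLC u).integrable
    have : ∫ x, (gam x * g u x - 2 * (gam x * g u x * ‖M u x‖ ^ 2)) ≤ Z := by
      refine integral_mono (i0.sub (i1.const_mul _)) h2.integrable fun x => ?_
      have e : h x ^ 2 = cut (M u) x ^ 2 * g u x := by
        simp only [hh, hg]
        rw [← prod_pow, ← mul_prod_erase _ _ (mem_univ u)]
      simp only [e]
      have := mul_le_mul_of_nonneg_left (cut_sq_ge (M u) x)
        (mul_nonneg (gam_pos x).le ((gLC u).nonneg x))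
      linarith
    rw [integral_sub i0 (i1.const_mul _), integral_const_mul] at this
    have n0 : 0 ≤ ∫ x, gam x * g u x :=
      integral_nonneg fun x => mul_nonneg (gam_pos x).le ((gLC u).nonneg x)
    have := mul_le_mul_of_nonneg_right (hM u) n0
    linarith
  set S : ℝ := ∑ u, hs (M u) * ‖M u b‖ ^ 2 with hS
  have S0 : 0 ≤ S := sum_nonneg fun u _ => mul_nonneg (hs_nonneg _) (sq_nonneg _)
  have iJ : Integrable (fun x => gam x * (h (x + b) * h (x + -b))) := by
    refine gam_integrable.mono' ?_ (Filter.Eventually.of_forall fun x => ?_)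
    · have := hLC.cont
      have := gam_cont (n := n)
      fun_prop
    · rw [Real.norm_eq_abs, abs_of_nonneg (mul_nonneg (gam_pos _).le
        (mul_nonneg (hLC.nonneg _) (hLC.nonneg _)))]
      exact mul_le_of_le_one_right (gam_pos _).le
        (mul_le_one₀ (hLC.le_one _) (hLC.nonneg _) (hLC.le_one _))
  have hJ : Z - 308 * S * Z ≤ ∫ x, gam x * (h (x + b) * h (x + -b)) := by
    have iu : ∀ u, Integrable (fun x => 76 * ‖M u b‖ ^ 2 * (gam x * g u x * ‖M u x‖ ^ 2)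
        + 2 * (‖M u b‖ ^ 2) ^ 2 * (gam x * g u x)) := fun u =>
      ((((gLC u).cov (M u)).1).const_mul _).add ((gLC u).integrable.const_mul _)
    have a1 : ∫ x, (gam x * h x ^ 2 - gam x * (h (x + b) * h (x + -b)))
        ≤ ∫ x, ∑ u, (76 * ‖M u b‖ ^ 2 * (gam x * g u x * ‖M u x‖ ^ 2)
          + 2 * (‖M u b‖ ^ 2) ^ 2 * (gam x * g u x)) := by
      refine integral_mono (h2.integrable.sub iJ) (integrable_finsetSum _ fun u _ => iu u)
        fun x => ?_
      have t := prod_tele univ (fun u => cut (M u) x ^ 2)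
        (fun u => cut (M u) (x + b) * cut (M u) (x + -b))
        (fun u => mul_nonneg ((cut_LC _).nonneg _) ((cut_LC _).nonneg _))
        (fun u => by
          have := (cut_LC (M u)).mid (x + b) (x + -b)
          rwa [show (1 / 2 : ℝ) • (x + b + (x + -b)) = x by module] at this)
      rw [prod_pow, prod_mul_distrib] at t
      have t2 := mul_le_mul_of_nonneg_left t (gam_pos x).le
      rw [mul_sub, mul_sum] at t2
      refine le_trans t2 (sum_le_sum fun u _ => ?_)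
      have := mul_le_mul_of_nonneg_left (cut_second (M u) x b (by linarith [hb u, hM u]))
        (mul_nonneg (gam_pos x).le ((gLC u).nonneg x))
      simp only [hg] at this ⊢
      linarith
    rw [integral_sub h2.integrable iJ, integral_finsetSum _ fun u _ => iu u] at a1
    have a2 : ∑ u, ∫ x, (76 * ‖M u b‖ ^ 2 * (gam x * g u x * ‖M u x‖ ^ 2)
          + 2 * (‖M u b‖ ^ 2) ^ 2 * (gam x * g u x)) ≤ 308 * S * Z := by
      rw [hS, mul_sum, sum_mul]
      refine sum_le_sum fun u _ => ?_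
      rw [integral_add ((((gLC u).cov (M u)).1).const_mul _) ((gLC u).integrable.const_mul _),
        integral_const_mul, integral_const_mul]
      have c1 := ((gLC u).cov (M u)).2
      have n0 : 0 ≤ ∫ x, gam x * g u x :=
        integral_nonneg fun x => mul_nonneg (gam_pos x).le ((gLC u).nonneg x)
      have z0 := sq_nonneg ‖M u b‖
      have c2 := mul_le_mul_of_nonneg_left c1 z0
      have c3 := mul_le_mul_of_nonneg_left (mul_le_mul_of_nonneg_right (hb u) n0) z0
      have c4 := mul_le_mul_of_nonneg_left (Zg u) (mul_nonneg (hs_nonneg (M u)) z0)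
      nlinarith
    linarith
  have s1 := memLp_two_iff_integrable_sq (μ := volume) (f := fun x => f (x + (b + b)))
    (fc.comp (continuous_add_const _)).aestronglyMeasurable
  have fL2 : MemLp (fun x => f (x + (b + b))) 2 volume :=
    fL.comp_measurePreserving (measurePreserving_add_right volume (b + b))
  have cross : ∫ x, f (x + (b + b)) * f x
      = Real.exp (-‖b‖ ^ 2) * Z⁻¹ * ∫ x, gam x * (h (x + b) * h (x + -b)) := by
    rw [← integral_add_right_eq_self _ (-b), ← integral_const_mul]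
    refine integral_congr_ae (Filter.Eventually.of_forall fun x => ?_)
    simp only [hf, show x + -b + (b + b) = x + b by abel, gam]
    have e : Real.exp (-‖x + b‖ ^ 2 / 2) * Real.exp (-‖x + -b‖ ^ 2 / 2)
        = Real.exp (-‖b‖ ^ 2) * Real.exp (-‖x‖ ^ 2) := by
      rw [← Real.exp_add, ← Real.exp_add, ← sub_eq_add_neg x b, norm_add_sq_real,
        norm_sub_sq_real]
      congr 1
      ring
    rw [div_mul_div_comm, Real.mul_self_sqrt Zpos.le, mul_mul_mul_comm, e]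
    ring
  have ex : ∫ x, (f (x + (b + b)) - f x) ^ 2 = 2 - 2 * ∫ x, f (x + (b + b)) * f x := by
    have e : ∀ x, (f (x + (b + b)) - f x) ^ 2
        = (f (x + (b + b)) ^ 2 + f x ^ 2) - 2 * (f (x + (b + b)) * f x) := fun x => by ring
    simp_rw [e]
    have i1 : Integrable (fun x => f (x + (b + b)) ^ 2 + f x ^ 2) :=
      fL2.integrable_sq.add fL.integrable_sq
    have i2 : Integrable (fun x => f (x + (b + b)) * f x) := fL2.integrable_mul fL
    rw [integral_sub i1 (i2.const_mul _), integral_add fL2.integrable_sq fL.integrable_sq,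
      integral_const_mul, integral_add_right_eq_self (fun x => f x ^ 2), f1]
    ring
  rw [ex, cross]
  have e1 := Real.add_one_le_exp (-‖b‖ ^ 2)
  have e2 : Real.exp (-‖b‖ ^ 2) ≤ 1 := Real.exp_le_one_iff.2 (by nlinarith [sq_nonneg ‖b‖])
  have e3 : 1 - 308 * S ≤ Z⁻¹ * ∫ x, gam x * (h (x + b) * h (x + -b)) := by
    rw [le_inv_mul_iff₀ Zpos]
    linarith
  have e4 := mul_le_mul_of_nonneg_left e3 (Real.exp_pos (-‖b‖ ^ 2)).le
  have e5 := mul_le_mul_of_nonneg_right e2 S0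
  nlinarith

end Vale.Agent.P262
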