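import Mathlib
import Vale.Agent.P262.State

/-! Families of quadratic constraints with a weighted cost, and dyadic chaining. -/

namespace Vale.Agent.P262

open Finset

variable {n : ℕ}

/-- `C` contains a finite intersection of unit constraints of total weighted cost at most `c`. -/
def Cut (w : Fin n → ℝ) (C : Set (E n)) (c : ℝ) : Prop :=
  ∃ (ι : Type) (_ : Fintype ι) (M : ι → E n →ₗ[ℝ] E n), (∀ u, hs (M u) ≤ 1 / 8) ∧
    ∑ u, hs (M u) * hsw w (M u) ≤ c ∧ ∀ x, (∀ u, ‖M u x‖ ≤ 1) → x ∈ C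

variable {w : Fin n → ℝ}

lemma Cut.mono {C C' : Set (E n)} {c c' : ℝ} (h : Cut w C c) (hC : C ⊆ C') (hc : c ≤ c') :
    Cut w C' c' := by
  obtain ⟨ι, _, M, h1, h2, h3⟩ := h
  exact ⟨ι, inferInstance, M, h1, h2.trans hc, fun x hx => hC (h3 x hx)⟩

lemma Cut.univ : Cut w Set.univ 0 :=
  ⟨Empty, inferInstance, fun u => u.elim, fun u => u.elim, by simp, fun _ _ => trivial⟩

lemma Cut.inter {C C' : Set (E n)} {c c' : ℝ} (h : Cut w C c) (h' : Cut w C' c') :
    Cut w (C ∩ C') (c + c') := by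
  obtain ⟨ι, _, M, h1, h2, h3⟩ := h
  obtain ⟨ι', _, M', h1', h2', h3'⟩ := h'
  refine ⟨ι ⊕ ι', inferInstance, Sum.elim M M', ?_, ?_, fun x hx =>
    ⟨h3 x fun u => hx (Sum.inl u), h3' x fun u => hx (Sum.inr u)⟩⟩
  · rintro (u | u)
    · exact h1 u
    · exact h1' u
  · rw [Fintype.sum_sum_type]
    exact add_le_add h2 h2'

lemma Cut.biInter {κ : Type*} (s : Finset κ) {C : κ → Set (E n)} {c : κ → ℝ}
    (h : ∀ i ∈ s, Cut w (C i) (c i)) : Cut w {x | ∀ i ∈ s, x ∈ C i} (∑ i ∈ s, c i) := by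
  classical
  induction s using Finset.induction_on with
  | empty => simpa using Cut.univ
  | insert a s ha ih =>
    rw [sum_insert ha]
    refine ((h a (mem_insert_self _ _)).inter
      (ih fun i hi => h i (mem_insert_of_mem hi))).mono ?_ le_rfl
    rintro x ⟨h1, h2⟩ i hi
    rcases mem_insert.1 hi with rfl | hi
    · exact h1
    · exact h2 i hi

lemma hsw_smul (ω : Fin n → ℝ) (c : ℝ) (A : E n →ₗ[ℝ] E n) :
    hsw ω (c • A) = c ^ 2 * hsw ω A := by
  simp only [hsw, mul_sum, LinearMap.smul_apply, norm_smul, mul_pow, Real.norm_eq_abs, sq_abs]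
  exact sum_congr rfl fun j _ => by ring

lemma hs_smul (c : ℝ) (A : E n →ₗ[ℝ] E n) : hs (c • A) = c ^ 2 * hs A := by
  simp only [hs, mul_sum, LinearMap.smul_apply, norm_smul, mul_pow, Real.norm_eq_abs, sq_abs]

lemma hsw_nonneg {ω : Fin n → ℝ} (hω : ∀ j, 0 ≤ ω j) (A : E n →ₗ[ℝ] E n) : 0 ≤ hsw ω A :=
  sum_nonneg fun j _ => mul_nonneg (hω j) (sq_nonneg _)

lemma hsw_sub {ω : Fin n → ℝ} (hω : ∀ j, 0 ≤ ω j) (A B : E n →ₗ[ℝ] E n) :
    hsw ω (A - B) ≤ 2 * hsw ω A + 2 * hsw ω B := by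
  simp only [hsw, mul_sum, ← sum_add_distrib, LinearMap.sub_apply]
  refine sum_le_sum fun j _ => ?_
  have h1 := pow_le_pow_left₀ (norm_nonneg _) (norm_sub_le (A (ee j)) (B (ee j))) 2
  have h2 : ‖A (ee j) - B (ee j)‖ ^ 2 ≤ 2 * ‖A (ee j)‖ ^ 2 + 2 * ‖B (ee j)‖ ^ 2 := by
    nlinarith [sq_nonneg (‖A (ee j)‖ - ‖B (ee j)‖)]
  have := mul_le_mul_of_nonneg_left h2 (hω j)
  linarith

lemma Cut.single (A : E n →ₗ[ℝ] E n) {r : ℝ} (hr : 0 < r) (hA : 8 * hs A ≤ r ^ 2) :
    Cut w {x | ‖A x‖ ≤ r} (hs A * hsw w A / r ^ 4) := by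
  refine ⟨Unit, inferInstance, fun _ => r⁻¹ • A, fun _ => ?_, ?_, fun x hx => ?_⟩
  · rw [hs_smul, inv_pow, inv_mul_le_iff₀ (by positivity)]
    linarith
  · simp only [univ_unique, sum_singleton, hs_smul, hsw_smul]
    apply le_of_eq
    field_simp
  · have := hx ()
    rw [LinearMap.smul_apply, norm_smul, norm_inv, Real.norm_eq_abs, abs_of_pos hr,
      inv_mul_le_iff₀ hr, mul_one] at this
    exact this

/-- The combined size of a linear map at speed scale `l`. -/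
noncomputable def nu (w : Fin n → ℝ) (l : ℝ) (A : E n →ₗ[ℝ] E n) : ℝ :=
  hsw (fun j => 1 + w j / l) A

lemma nu_eq (l : ℝ) (A : E n →ₗ[ℝ] E n) : nu w l A = hs A + hsw w A / l := by
  simp only [nu, hsw, hs, sum_div, ← sum_add_distrib]
  exact sum_congr rfl fun j _ => by ring

lemma Cut.single' (hw : ∀ j, 0 ≤ w j) {l : ℝ} (hl : 0 < l) (A : E n →ₗ[ℝ] E n) {r a : ℝ}
    (hr : 0 < r) (hA : nu w l A ≤ a) (ha : 8 * a ≤ r ^ 2) :
    Cut w {x | ‖A x‖ ≤ r} (l * a ^ 2 / r ^ 4) := by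
  rw [nu_eq] at hA
  have h1 := hs_nonneg A
  have h2 := hsw_nonneg hw A
  have h3 : 0 ≤ hsw w A / l := div_nonneg h2 hl.le
  have h4 : hsw w A ≤ l * a := by
    rw [← div_le_iff₀' hl]
    linarith
  refine (Cut.single A hr (by linarith)).mono subset_rfl ?_
  refine div_le_div_of_nonneg_right ?_ (by positivity)
  have := mul_le_mul (show hs A ≤ a by linarith) h4 h2 (by linarith)
  linarith

/-- First time at which the clock `m` reaches `k / 2 ^ q`. -/
noncomputable def hit (m : ℕ → ℝ) (q k : ℕ) : ℕ := sInf {t | (k : ℝ) ≤ 2 ^ q * m t}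

/-- The dyadic cell of `t`. -/
noncomputable def cell (m : ℕ → ℝ) (q t : ℕ) : ℕ := ⌊2 ^ q * m t⌋₊

section
variable {m : ℕ → ℝ} (h0 : ∀ t, 0 ≤ m t)
include h0

lemma cell_le (q t : ℕ) : (cell m q t : ℝ) ≤ 2 ^ q * m t :=
  Nat.floor_le (mul_nonneg (by positivity) (h0 t))

lemma hit_le (q t : ℕ) : hit m q (cell m q t) ≤ t := Nat.sInf_le (cell_le h0 q t)

lemma hit_spec (q t : ℕ) : (cell m q t : ℝ) ≤ 2 ^ q * m (hit m q (cell m q t)) :=
  Nat.sInf_mem (s := {s | (cell m q t : ℝ) ≤ 2 ^ q * m s}) ⟨t, cell_le h0 q t⟩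

lemma hit_close (q t : ℕ) : m t - m (hit m q (cell m q t)) ≤ (1 / 2) ^ q := by
  have h1 := hit_spec h0 q t
  have h2 : 2 ^ q * m t < cell m q t + 1 := Nat.lt_floor_add_one _
  rw [one_div, inv_pow, ← one_div, le_div_iff₀ (by positivity)]
  linarith

omit h0 in
lemma cell_succ (q t : ℕ) : cell m (q + 1) t / 2 = cell m q t := by
  unfold cell
  rw [← Nat.floor_div_natCast]
  congr 1
  push_cast
  ring

lemma hit_mono (q t : ℕ) : hit m q (cell m q t) ≤ hit m (q + 1) (cell m (q + 1) t) := by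
  refine Nat.sInf_le ?_
  have h1 := hit_spec h0 (q + 1) t
  have h2 : 2 * cell m q t ≤ cell m (q + 1) t := by
    rw [← cell_succ]
    omega
  have h3 : (2 : ℝ) * cell m q t ≤ cell m (q + 1) t := by exact_mod_cast h2
  change (cell m q t : ℝ) ≤ _
  rw [pow_succ] at h1
  linarith

end

theorem chain (hw : ∀ j, 0 ≤ w j) {l : ℝ} (hl : 0 < l) (L : ℕ → E n →ₗ[ℝ] E n) (m : ℕ → ℝ)
    (Mx : ℝ) (h0 : ∀ t, 0 ≤ m t) (hM : ∀ t, m t ≤ Mx) (hm : Monotone m)
    (hL : ∀ s t, s ≤ t → nu w l (L t - L s) ≤ m t - m s) (T : ℕ) :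
    Cut w {x | ∀ t ≤ T, ‖L t x‖ ^ 2 ≤ 9000 * (nu w l (L t) + 1)} (l * (Mx + 1) / 108) := by
  classical
  have hω : ∀ j, 0 ≤ 1 + w j / l := fun j => by have := hw j; positivity
  have nn : ∀ A, 0 ≤ nu w l A := fun A => hsw_nonneg hω A
  have M0 : 0 ≤ Mx := (h0 0).trans (hM 0)
  have cnt : ∀ q : ℕ, ((⌊2 ^ q * Mx⌋₊ + 1 : ℕ) : ℝ) ≤ 2 ^ q * (Mx + 1) := by
    intro q
    have h1 : (⌊2 ^ q * Mx⌋₊ : ℝ) ≤ 2 ^ q * Mx := Nat.floor_le (by positivity)
    have h2 : (1 : ℝ) ≤ 2 ^ q := one_le_pow₀ (by norm_num)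
    push_cast
    linarith
  have cmem : ∀ q t, cell m q t ∈ range (⌊2 ^ q * Mx⌋₊ + 1) := fun q t =>
    mem_range.2 (Nat.lt_succ_of_le (Nat.floor_le_floor
      (mul_le_mul_of_nonneg_left (hM t) (by positivity))))
  -- checkpoints
  have c1 := Cut.biInter (w := w) (range (⌊2 ^ 0 * Mx⌋₊ + 1))
    (C := fun k => {x | ‖L (hit m 0 k) x‖ ≤ 6 * √(nu w l (L (hit m 0 k)) + 1)})
    (c := fun _ => l / 1296) (fun k _ => by
      have p : 0 < nu w l (L (hit m 0 k)) + 1 := by linarith [nn (L (hit m 0 k))]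
      have e : (6 * √(nu w l (L (hit m 0 k)) + 1)) ^ 2 = 36 * (nu w l (L (hit m 0 k)) + 1) := by
        rw [mul_pow, Real.sq_sqrt p.le]
        norm_num
      refine (Cut.single' hw hl (L (hit m 0 k)) (r := 6 * √(nu w l (L (hit m 0 k)) + 1))
        (a := nu w l (L (hit m 0 k)) + 1) (by positivity) (by linarith)
        (by rw [e]; linarith)).mono subset_rfl (le_of_eq ?_)
      rw [show ∀ y : ℝ, y ^ 4 = (y ^ 2) ^ 2 from fun y => by ring, e]
      field_simp
      norm_num)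
  -- chain links
  set A : ℕ → ℕ → E n →ₗ[ℝ] E n := fun q k =>
    if nu w l (L (hit m (q + 1) k) - L (hit m q (k / 2))) ≤ (1 / 2) ^ q then
      L (hit m (q + 1) k) - L (hit m q (k / 2)) else 0 with hA
  have c2 := Cut.biInter (w := w) (range T)
    (C := fun q => {x | ∀ k ∈ range (⌊2 ^ (q + 1) * Mx⌋₊ + 1),
      x ∈ {x | ‖A q k x‖ ≤ 6 * (9 / 10) ^ q}})
    (c := fun q => (4 / 5) ^ q * (2 * (l * (Mx + 1) / 1296))) (fun q _ => by
      refine (Cut.biInter _ (c := fun _ => l * ((1 / 2) ^ q) ^ 2 / (6 * (9 / 10) ^ q) ^ 4)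
        fun k _ => Cut.single' hw hl (A q k) (by positivity) ?_ ?_).mono subset_rfl ?_
      · simp only [hA]
        split_ifs with h
        · exact h
        · simp [nu, hsw]
      · rw [mul_pow, ← pow_mul, mul_comm q 2, pow_mul]
        have : ((1 : ℝ) / 2) ^ q ≤ ((9 / 10) ^ 2) ^ q := pow_le_pow_left₀ (by norm_num)
          (by norm_num) q
        have : (0 : ℝ) ≤ ((9 / 10) ^ 2) ^ q := by positivity
        linarith
      · rw [sum_const, card_range, nsmul_eq_mul]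
        refine le_trans (mul_le_mul_of_nonneg_right (cnt (q + 1)) (by positivity)) ?_
        have e : (2 : ℝ) ^ (q + 1) * (Mx + 1) * (l * ((1 / 2) ^ q) ^ 2 / (6 * (9 / 10) ^ q) ^ 4)
            = (2 * (1 / 2) ^ 2 / (9 / 10) ^ 4) ^ q * (2 * (l * (Mx + 1) / 1296)) := by
          rw [div_pow (2 * (1 / 2) ^ 2 : ℝ), mul_pow (2 : ℝ), ← pow_mul (1 / 2 : ℝ) 2 q,
            ← pow_mul (9 / 10 : ℝ) 4 q, mul_comm 2 q, mul_comm 4 q, pow_mul, pow_mul, pow_succ]
          have : (0 : ℝ) < (9 / 10) ^ q := by positivity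
          generalize ((9 : ℝ) / 10) ^ q = a at *
          field_simp
          ring
        rw [e]
        exact mul_le_mul_of_nonneg_right (pow_le_pow_left₀ (by norm_num) (by norm_num) q)
          (by positivity))
  -- last step
  have c3 := Cut.biInter (w := w) (range (T + 1))
    (C := fun t => {x | ‖(L t - L (hit m T (cell m T t))) x‖ ≤ 6})
    (c := fun _ => l * ((1 / 2) ^ T) ^ 2 / 6 ^ 4) (fun t _ =>
      Cut.single' hw hl _ (by norm_num)
        ((hL _ _ (hit_le h0 T t)).trans (hit_close h0 T t)) (by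
          have : ((1 : ℝ) / 2) ^ T ≤ 1 := pow_le_one₀ (by norm_num) (by norm_num)
          linarith))
  refine ((c1.inter c2).inter c3).mono ?_ ?_
  · rintro x ⟨⟨x1, x2⟩, x3⟩ t ht
    have y1 := x1 _ (cmem 0 t)
    have y3 := x3 t (mem_range.2 (by omega))
    have y2 : ∀ q ≤ T, ‖L (hit m q (cell m q t)) x - L (hit m 0 (cell m 0 t)) x‖
        ≤ 60 * (1 - (9 / 10) ^ q) := by
      intro q hq
      induction q with
      | zero => simp
      | succ q ih =>
        have z := x2 q (mem_range.2 (by omega)) _ (cmem (q + 1) t)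
        simp only [hA, Set.mem_ofPred_eq, cell_succ] at z
        rw [if_pos] at z
        · have := norm_sub_le_norm_sub_add_norm_sub (L (hit m (q + 1) (cell m (q + 1) t)) x)
            (L (hit m q (cell m q t)) x) (L (hit m 0 (cell m 0 t)) x)
          rw [LinearMap.sub_apply] at z
          have := ih (by omega)
          rw [pow_succ]
          linarith
        · refine (hL _ _ (hit_mono h0 q t)).trans (le_trans ?_ (hit_close h0 q t))
          linarith [hm (hit_le h0 (q + 1) t)]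
    have y4 := y2 T le_rfl
    simp only [Set.mem_ofPred_eq, LinearMap.sub_apply] at y1 y3
    set τ := hit m 0 (cell m 0 t)
    have y5 : nu w l (L τ) ≤ 2 * nu w l (L t) + 2 := by
      have a := hsw_sub hω (L t) (L t - L τ)
      rw [sub_sub_cancel] at a
      have b := (hL _ _ (hit_le h0 0 t)).trans (hit_close h0 0 t)
      change nu w l (L τ) ≤ 2 * nu w l (L t) + 2 * nu w l (L t - L τ) at a
      rw [pow_zero] at b
      linarith
    have y6 : ‖L t x‖ ≤ 6 * √(nu w l (L τ) + 1) + 66 := by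
      have a := norm_sub_le_norm_sub_add_norm_sub (L t x) (L (hit m T (cell m T t)) x) (L τ x)
      have b := norm_sub_norm_le (L t x) (L τ x)
      have : (0 : ℝ) ≤ (9 / 10) ^ T := by positivity
      linarith
    have y7 := pow_le_pow_left₀ (norm_nonneg _) y6 2
    have y8 := Real.sq_sqrt (show 0 ≤ nu w l (L τ) + 1 by linarith [nn (L τ)])
    have := nn (L t)
    nlinarith [sq_nonneg (6 * √(nu w l (L τ) + 1) - 66)]
  · rw [sum_const, sum_const, card_range, card_range, nsmul_eq_mul, nsmul_eq_mul, ← sum_mul]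
    have a1 := mul_le_mul_of_nonneg_right (cnt 0) (show 0 ≤ l / 1296 by positivity)
    have a2 : ∑ i ∈ range T, ((4 : ℝ) / 5) ^ i ≤ 5 := by
      have := geom_sum_eq (show (4 : ℝ) / 5 ≠ 1 by norm_num) T
      have p : (0 : ℝ) ≤ (4 / 5) ^ T := by positivity
      rw [this, div_le_iff_of_neg (by norm_num)]
      linarith
    have a3 := mul_le_mul_of_nonneg_right a2
      (show 0 ≤ 2 * (l * (Mx + 1) / 1296) by positivity)
    have a4 : ((T + 1 : ℕ) : ℝ) * ((1 / 2) ^ T) ^ 2 ≤ 1 := by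
      have b1 : ((T + 1 : ℕ) : ℝ) ≤ 2 ^ T := by exact_mod_cast Nat.lt_two_pow_self
      have b2 : ((1 : ℝ) / 2) ^ T ≤ 1 := pow_le_one₀ (by norm_num) (by norm_num)
      have b3 : (2 : ℝ) ^ T * (1 / 2) ^ T = 1 := by rw [← mul_pow]; norm_num
      have b4 : (0 : ℝ) ≤ (1 / 2) ^ T := by positivity
      have b5 := mul_le_mul_of_nonneg_right b1 b4
      nlinarith
    have a5 := mul_le_mul_of_nonneg_left a4 hl.le
    have a6 := mul_nonneg hl.le M0
    nlinarith

end Vale.Agent.P262
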