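import Mathlib
import Vale.Agent.P262.Cut

/-! Diagonal maps, nested projections, and the chain of ridge maps at one speed scale. -/

namespace Vale.Agent.P262

open Finset
open scoped InnerProductSpace

variable {n : ℕ}

/-- The diagonal map with entries `a`. -/
noncomputable def diag (a : Fin n → ℝ) : E n →ₗ[ℝ] E n where
  toFun x := WithLp.toLp 2 fun j => a j * x j
  map_add' x y := by ext j; simp [mul_add]
  map_smul' c x := by ext j; simp; ring

@[simp] lemma diag_apply (a : Fin n → ℝ) (x : E n) (j : Fin n) : diag a x j = a j * x j := rfl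

lemma diag_ee (a : Fin n → ℝ) (j : Fin n) : diag a (ee j) = a j • ee j := by
  ext i
  by_cases h : i = j
  · subst h; simp [ee]
  · simp [ee, h]

lemma inner_diag (a : Fin n → ℝ) (x y : E n) : ⟪diag a x, y⟫_ℝ = ⟪x, diag a y⟫_ℝ := by
  simp only [PiLp.inner_apply, diag_apply, RCLike.inner_apply, conj_trivial]
  exact sum_congr rfl fun j _ => by ring

lemma inner_diag_eq (a : Fin n → ℝ) (x y : E n) : ⟪x, diag a y⟫_ℝ = ∑ j, a j * (x j * y j) := by
  simp only [PiLp.inner_apply, diag_apply, RCLike.inner_apply, conj_trivial]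
  exact sum_congr rfl fun j _ => by ring

lemma inner_ee (x : E n) (j : Fin n) : ⟪x, ee j⟫_ℝ = x j := by
  simp [ee, EuclideanSpace.inner_single_right]

lemma norm_ee (j : Fin n) : ‖(ee j : E n)‖ = 1 := by simp [ee]

/-- Restriction to the coordinates of index below `t`. -/
noncomputable def mask (t : ℕ) : E n →ₗ[ℝ] E n := diag fun j => if (j : ℕ) < t then 1 else 0

lemma mask_diag (t : ℕ) (a : Fin n → ℝ) (x : E n) : mask t (diag a x) = diag a (mask t x) := by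
  ext j
  simp only [mask, diag_apply]
  ring

lemma mask_mask {s t : ℕ} (h : s ≤ t) (x : E n) : mask t (mask s x) = mask s x := by
  ext j
  simp only [mask, diag_apply]
  by_cases hj : (j : ℕ) < s
  · rw [if_pos hj, if_pos (lt_of_lt_of_le hj h), one_mul]
  · simp [hj]

/-- An increasing family of orthogonal projections. -/
structure Nest (P : ℕ → E n →ₗ[ℝ] E n) : Prop where
  symm : ∀ t x y, ⟪P t x, y⟫_ℝ = ⟪x, P t y⟫_ℝ
  comp : ∀ s t, s ≤ t → ∀ x, P t (P s x) = P s x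

lemma mask_nest : Nest (mask : ℕ → E n →ₗ[ℝ] E n) :=
  ⟨fun _ x y => inner_diag _ x y, fun _ _ h x => mask_mask h x⟩

lemma proj_nest (N : ℕ → Submodule ℝ (E n)) (hN : Monotone N) :
    Nest (fun t => ((N t).starProjection : E n →ₗ[ℝ] E n)) :=
  ⟨fun t x y => (N t).inner_starProjection_left_eq_right x y, fun s _ h x =>
    Submodule.starProjection_eq_self_iff.2 (hN h ((N s).starProjection_apply_mem x))⟩

lemma Nest.norm_sub {P : ℕ → E n →ₗ[ℝ] E n} (hP : Nest P) {s t : ℕ} (h : s ≤ t) (x : E n) :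
    ‖P t x - P s x‖ ^ 2 = ‖P t x‖ ^ 2 - ‖P s x‖ ^ 2 := by
  have e : ⟪P t x, P s x⟫_ℝ = ‖P s x‖ ^ 2 := by
    rw [hP.symm, hP.comp s t h, ← real_inner_self_eq_norm_sq, hP.symm, hP.comp s s le_rfl]
  rw [norm_sub_sq_real, e]
  ring

lemma Nest.norm_le {P : ℕ → E n →ₗ[ℝ] E n} (hP : Nest P) (t : ℕ) (x : E n) :
    ‖P t x‖ ^ 2 ≤ ‖x‖ ^ 2 := by
  have e : ⟪x, P t x⟫_ℝ = ‖P t x‖ ^ 2 := by
    rw [← real_inner_self_eq_norm_sq, hP.symm, hP.comp t t le_rfl]
  have := norm_sub_sq_real x (P t x)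
  nlinarith [sq_nonneg ‖x - P t x‖]

lemma Nest.hs_sub {P : ℕ → E n →ₗ[ℝ] E n} (hP : Nest P) {s t : ℕ} (h : s ≤ t)
    (ρ : Fin n → ℝ) : ∑ j, ‖diag ρ (P t (ee j) - P s (ee j))‖ ^ 2
      = ∑ i, ρ i ^ 2 * ‖P t (ee i)‖ ^ 2 - ∑ i, ρ i ^ 2 * ‖P s (ee i)‖ ^ 2 := by
  have e : ∀ t i j, P t (ee j) i = P t (ee i) j := fun t i j => by
    rw [← inner_ee, hP.symm, real_inner_comm, inner_ee]
  simp_rw [← sum_sub_distrib, ← mul_sub, ← hP.norm_sub h, EuclideanSpace.real_norm_sq_eq,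
    mul_sum]
  rw [sum_comm]
  refine sum_congr rfl fun i _ => sum_congr rfl fun j _ => ?_
  simp only [diag_apply, PiLp.sub_apply, e t i j, e s i j]
  ring

/-- The ridge map at scale `l` built from two families of projections. -/
noncomputable def ridge (w : Fin n → ℝ) (l : ℝ) (P Q : E n →ₗ[ℝ] E n) : E n →ₗ[ℝ] E n :=
  diag (fun j => (w j / l) / √(1 + (w j / l) ^ 2)) ∘ₗ (P - Q) ∘ₗ
    diag (fun j => (√(1 + (w j / l) ^ 2))⁻¹)

theorem scale_cut {w : Fin n → ℝ} (hw : ∀ j, 0 ≤ w j) {l : ℝ} (hl : 0 < l)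
    {P Q : ℕ → E n →ₗ[ℝ] E n} (hP : Nest P) (hQ : Nest Q) (T : ℕ) :
    Cut w {x | ∀ t ≤ T, ‖ridge w l (P t) (Q t) x‖ ^ 2
        ≤ 9000 * (nu w l (ridge w l (P t) (Q t)) + 1)}
      (l * (8 * ∑ j, (w j / l) ^ 2 / (1 + (w j / l) ^ 2) + 1) / 108) := by
  set ρ : Fin n → ℝ := fun j => (w j / l) / √(1 + (w j / l) ^ 2) with hρ
  have ρ2 : ∀ j, ρ j ^ 2 = (w j / l) ^ 2 / (1 + (w j / l) ^ 2) := fun j => by
    simp only [hρ]
    rw [div_pow, Real.sq_sqrt (by positivity)]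
  have mono : ∀ {P : ℕ → E n →ₗ[ℝ] E n}, Nest P → ∀ s t, s ≤ t →
      ∑ i, ρ i ^ 2 * ‖P s (ee i)‖ ^ 2 ≤ ∑ i, ρ i ^ 2 * ‖P t (ee i)‖ ^ 2 := by
    intro P hP s t h
    rw [← sub_nonneg, ← hP.hs_sub h]
    exact sum_nonneg fun _ _ => sq_nonneg _
  have bd : ∀ {P : ℕ → E n →ₗ[ℝ] E n}, Nest P → ∀ t,
      ∑ i, ρ i ^ 2 * ‖P t (ee i)‖ ^ 2 ≤ ∑ j, (w j / l) ^ 2 / (1 + (w j / l) ^ 2) := by
    intro P hP t
    refine sum_le_sum fun i _ => ?_
    have := hP.norm_le t (ee i)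
    rw [norm_ee, one_pow] at this
    rw [← ρ2]
    exact mul_le_of_le_one_right (sq_nonneg _) this
  refine chain hw hl (fun t => ridge w l (P t) (Q t))
    (fun t => 4 * (∑ i, ρ i ^ 2 * ‖P t (ee i)‖ ^ 2 + ∑ i, ρ i ^ 2 * ‖Q t (ee i)‖ ^ 2)) _
    (fun t => by positivity) (fun t => by linarith [bd hP t, bd hQ t])
    (fun s t h => by
      have := mono hP s t h
      have := mono hQ s t h
      simp only
      linarith) (fun s t h => ?_) T
  have e1 := hP.hs_sub h ρ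
  have e2 := hQ.hs_sub h ρ
  have : nu w l (ridge w l (P t) (Q t) - ridge w l (P s) (Q s))
      ≤ 4 * (∑ j, ‖diag ρ (P t (ee j) - P s (ee j))‖ ^ 2
        + ∑ j, ‖diag ρ (Q t (ee j) - Q s (ee j))‖ ^ 2) := by
    rw [← sum_add_distrib, mul_sum, nu, hsw]
    refine sum_le_sum fun j _ => ?_
    have e : (ridge w l (P t) (Q t) - ridge w l (P s) (Q s)) (ee j)
        = (√(1 + (w j / l) ^ 2))⁻¹ • (diag ρ (P t (ee j) - P s (ee j))
          - diag ρ (Q t (ee j) - Q s (ee j))) := by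
      simp only [ridge, LinearMap.sub_apply, LinearMap.comp_apply, diag_ee, map_smul, map_sub,
        ← hρ]
      module
    rw [e, norm_smul, mul_pow, Real.norm_eq_abs, sq_abs, inv_pow, Real.sq_sqrt (by positivity)]
    generalize diag ρ (P t (ee j) - P s (ee j)) = a
    generalize diag ρ (Q t (ee j) - Q s (ee j)) = b
    have h1 := pow_le_pow_left₀ (norm_nonneg _) (norm_sub_le a b) 2
    have h2 : ‖a - b‖ ^ 2 ≤ 2 * (‖a‖ ^ 2 + ‖b‖ ^ 2) := by nlinarith [sq_nonneg (‖a‖ - ‖b‖)]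
    have h3 : (1 + w j / l) * (1 + (w j / l) ^ 2)⁻¹ ≤ 2 := by
      rw [← div_eq_mul_inv, div_le_iff₀ (by positivity)]
      nlinarith [sq_nonneg (w j / l - 1)]
    rw [← mul_assoc]
    have := mul_le_mul h3 h2 (sq_nonneg _) (by norm_num)
    linarith
  linarith

lemma exists_eigen (S : Submodule ℝ (E n)) (a : Fin n → ℝ) :
    ∃ (u : Fin (Module.finrank ℝ S) → E n) (x : Fin (Module.finrank ℝ S) → ℝ),
      (∀ i k, ⟪u i, u k⟫_ℝ = if i = k then 1 else 0) ∧ (∀ i, u i ∈ S) ∧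
      (∀ i k, ⟪u i, diag a (u k)⟫_ℝ = if i = k then x i else 0) ∧
      ∀ y, (∀ i, ⟪u i, y⟫_ℝ = 0) → y ∈ Sᗮ := by
  set T : S →ₗ[ℝ] S := (S.orthogonalProjectionOnto : E n →ₗ[ℝ] S) ∘ₗ diag a ∘ₗ S.subtype with hT
  have hTs : T.IsSymmetric := by
    intro x y
    simp only [hT, LinearMap.comp_apply, Submodule.subtype_apply, ContinuousLinearMap.coe_coe]
    rw [Submodule.inner_orthogonalProjectionOnto_eq_of_mem_right,
      Submodule.inner_orthogonalProjectionOnto_eq_of_mem_left, inner_diag]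
  set b := hTs.eigenvectorBasis rfl with hb
  have on : ∀ i k, ⟪b i, b k⟫_ℝ = if i = k then 1 else 0 := orthonormal_iff_ite.1 b.orthonormal
  refine ⟨fun i => b i, hTs.eigenvalues rfl, fun i k => on i k, fun i => (b i).2,
    fun i k => ?_, fun y hy => ?_⟩
  · rw [← Submodule.inner_orthogonalProjectionOnto_eq_of_mem_left]
    have := hTs.apply_eigenvectorBasis rfl k
    simp only [hT, LinearMap.comp_apply, Submodule.subtype_apply, ContinuousLinearMap.coe_coe,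
      ← hb] at this
    rw [this, real_inner_smul_right, on]
    split_ifs with h
    · simp [h]
    · simp
  · rw [Submodule.mem_orthogonal]
    intro z hz
    have := b.sum_repr ⟨z, hz⟩
    have e : z = ∑ i, b.repr ⟨z, hz⟩ i • (b i : E n) := by
      have := congrArg (Submodule.subtype S) this
      rw [map_sum] at this
      simpa using this.symm
    rw [e, sum_inner]
    simp [real_inner_smul_left, hy]

lemma norm_sq_sum {r : ℕ} (a : Fin r → E n) (y c : Fin r → ℝ)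
    (h : ∀ i k, ⟪a i, a k⟫_ℝ = if i = k then y i else 0) :
    ‖∑ i, c i • a i‖ ^ 2 = ∑ i, c i ^ 2 * y i := by
  rw [← real_inner_self_eq_norm_sq, sum_inner]
  refine sum_congr rfl fun i _ => ?_
  rw [inner_sum]
  simp only [real_inner_smul_left, real_inner_smul_right, h, mul_ite, mul_zero, sum_ite_eq,
    mem_univ, if_true]
  ring

lemma tele_term (s : ℝ) (hs : 0 ≤ s) :
    s / (1 + s ^ 2) ≤ (7 / 2) * (2 * s / (1 + 2 * s) - s / (1 + s)) := by
  have e : 2 * s / (1 + 2 * s) - s / (1 + s) = s / ((1 + 2 * s) * (1 + s)) := by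
    field_simp
    ring
  rw [e, ← mul_div_assoc, div_le_div_iff₀ (by positivity) (by positivity)]
  have := mul_nonneg hs (sq_nonneg (s - 1))
  nlinarith

lemma tele_sum (s : ℝ) (hs : 0 ≤ s) (H : ℕ) :
    ∑ h ∈ range H, (s * 2 ^ h) / (1 + (s * 2 ^ h) ^ 2) ≤ 7 / 2 := by
  have : ∑ h ∈ range H, (s * 2 ^ h) / (1 + (s * 2 ^ h) ^ 2)
      ≤ (7 / 2) * (s * 2 ^ H / (1 + s * 2 ^ H)) := by
    induction H with
    | zero => simp; positivity
    | succ H ih =>
      rw [sum_range_succ, pow_succ 2 H, show s * (2 ^ H * 2) = 2 * (s * 2 ^ H) by ring]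
      have := tele_term (s * 2 ^ H) (by positivity)
      linarith
  have h1 : s * 2 ^ H / (1 + s * 2 ^ H) ≤ 1 := by
    rw [div_le_one (by positivity)]
    linarith
  linarith

end Vale.Agent.P262
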