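import Mathlib
import Vale.Agent.P262.Ridge

/-! Simultaneous control of all states of a causal linear filter with `d`-dimensional state. -/

namespace Vale.Agent.P262

open Finset
open scoped InnerProductSpace

variable {n d : ℕ}

/-- The null space at time `t` in the metric of scale `l`. -/
noncomputable def nullSp (w : Fin n → ℝ) (l : ℝ) (Z : E n →ₗ[ℝ] E d) (t : ℕ) :
    Submodule ℝ (E n) :=
  LinearMap.ker (mask t - LinearMap.id) ⊓
    LinearMap.ker (Z ∘ₗ diag fun j => √(1 + (w j / l) ^ 2))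

lemma mem_nullSp {w : Fin n → ℝ} {l : ℝ} {Z : E n →ₗ[ℝ] E d} {t : ℕ} {y : E n} :
    y ∈ nullSp w l Z t ↔ mask t y = y ∧ Z (diag (fun j => √(1 + (w j / l) ^ 2)) y) = 0 := by
  simp [nullSp, sub_eq_zero]

lemma ridge_formula {w : Fin n → ℝ} {l : ℝ} (hl : 0 < l) {Z : E n →ₗ[ℝ] E d} {t : ℕ}
    (hc : ∀ x, Z (mask t x) = Z x) {r : ℕ} (u : Fin r → E n) (ξ : Fin r → ℝ)
    (h1 : ∀ i k, ⟪u i, u k⟫_ℝ = if i = k then 1 else 0)
    (h2 : ∀ i, u i ∈ (LinearMap.ker Z)ᗮ)
    (h3 : ∀ i k, ⟪u i, diag (fun j => w j ^ 2) (u k)⟫_ℝ = if i = k then ξ i ^ 2 else 0)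
    (h4 : ∀ y, (∀ i, ⟪u i, y⟫_ℝ = 0) → Z y = 0) (x : E n) :
    ridge w l (mask t) ((nullSp w l Z t).starProjection : E n →ₗ[ℝ] E n) x
      = ∑ i, (⟪u i, x⟫_ℝ / (1 + (ξ i / l) ^ 2)) • diag (fun j => w j / l) (u i) := by
  set σ : Fin n → ℝ := fun j => √(1 + (w j / l) ^ 2) with hσ
  have σp : ∀ j, 0 < σ j := fun j => Real.sqrt_pos.2 (by positivity)
  have σ2 : ∀ j, σ j * σ j = 1 + (w j / l) ^ 2 := fun j => Real.mul_self_sqrt (by positivity)
  have perp : ∀ i z, Z z = 0 → ⟪u i, z⟫_ℝ = 0 := fun i z hz =>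
    Submodule.inner_left_of_mem_orthogonal (LinearMap.mem_ker.2 hz) (h2 i)
  have um : ∀ i, mask t (u i) = u i := by
    intro i
    have a : ⟪u i, u i - mask t (u i)⟫_ℝ = 0 := perp i _ (by rw [map_sub, hc, sub_self])
    have b : ⟪mask t (u i), u i - mask t (u i)⟫_ℝ = 0 := by
      rw [mask_nest.symm, map_sub, mask_mask le_rfl, sub_self, inner_zero_right]
    have c : ⟪u i - mask t (u i), u i - mask t (u i)⟫_ℝ = 0 := by
      rw [inner_sub_left, a, b, sub_self]
    rw [inner_self_eq_zero, sub_eq_zero] at c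
    exact c.symm
  set c : Fin r → ℝ := fun i => ⟪u i, x⟫_ℝ / (1 + (ξ i / l) ^ 2) with hcdef
  set g : E n := ∑ i, c i • diag σ (u i) with hg
  set y : E n := diag (fun j => (σ j)⁻¹) x with hy
  have hQ : (nullSp w l Z t).starProjection y = mask t y - g := by
    refine Submodule.eq_starProjection_of_mem_of_inner_eq_zero (mem_nullSp.2 ⟨?_, ?_⟩) ?_
    · rw [map_sub, mask_mask le_rfl, hg, map_sum]
      simp only [map_smul, mask_diag, um]
    · refine h4 _ fun k => ?_
      have a : diag σ (mask t y) = mask t x := by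
        rw [← mask_diag]
        congr 1
        ext j
        simp only [hy, diag_apply]
        rw [← mul_assoc, mul_inv_cancel₀ (σp j).ne', one_mul]
      have b : ∀ i, ⟪u k, diag σ (diag σ (u i))⟫_ℝ
          = if k = i then 1 + (ξ k / l) ^ 2 else 0 := by
        intro i
        have e : diag σ (diag σ (u i)) = u i + (l ^ 2)⁻¹ • diag (fun j => w j ^ 2) (u i) := by
          ext j
          simp only [diag_apply, PiLp.add_apply, PiLp.smul_apply, smul_eq_mul]
          rw [← mul_assoc, σ2]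
          field_simp
        rw [e, inner_add_right, real_inner_smul_right, h1, h3]
        split_ifs
        · field_simp
        · simp
      rw [← hσ, map_sub, a, inner_sub_right, ← mask_nest.symm, um, hg, map_sum, inner_sum]
      simp only [map_smul, real_inner_smul_right, b, mul_ite, mul_zero, sum_ite_eq, mem_univ,
        if_true, hcdef]
      field_simp
      ring
    · intro z hz
      obtain ⟨z1, z2⟩ := mem_nullSp.1 hz
      rw [inner_sub_left, inner_sub_left, mask_nest.symm, z1, hg, sum_inner]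
      simp only [real_inner_smul_left, inner_diag]
      rw [sum_eq_zero fun i _ => by rw [perp i _ z2, mul_zero]]
      ring
  simp only [ridge, LinearMap.comp_apply, LinearMap.sub_apply, ContinuousLinearMap.coe_coe]
  rw [← hy, hQ, sub_sub_cancel, hg, map_sum]
  refine sum_congr rfl fun i _ => ?_
  rw [map_smul]
  congr 1
  ext j
  simp only [diag_apply]
  rw [← mul_assoc, div_mul_cancel₀ _ (σp j).ne']

lemma ridge_norm {w : Fin n → ℝ} {l : ℝ} {r : ℕ} (u : Fin r → E n) (ξ : Fin r → ℝ)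
    (h3 : ∀ i k, ⟪u i, diag (fun j => w j ^ 2) (u k)⟫_ℝ = if i = k then ξ i ^ 2 else 0)
    (a : Fin r → ℝ) :
    ‖∑ i, (a i / (1 + (ξ i / l) ^ 2)) • diag (fun j => w j / l) (u i)‖ ^ 2
      = ∑ i, (ξ i / l) ^ 2 / (1 + (ξ i / l) ^ 2) ^ 2 * a i ^ 2 := by
  rw [norm_sq_sum _ (fun i => (ξ i / l) ^ 2)]
  · exact sum_congr rfl fun i _ => by rw [div_pow (a i)]; ring
  · intro i k
    have e : diag (fun j => w j / l) (diag (fun j => w j / l) (u k))
        = (l ^ 2)⁻¹ • diag (fun j => w j ^ 2) (u k) := by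
      ext j
      simp only [diag_apply, PiLp.smul_apply, smul_eq_mul]
      ring
    rw [inner_diag, e, real_inner_smul_right, h3]
    split_ifs
    · ring
    · simp

lemma psi_bound (s : ℝ) (hs : 0 ≤ s) :
    s ^ 2 / (1 + s ^ 2) ^ 2 * (1 + s) ≤ 2 * (s / (1 + s ^ 2)) := by
  rw [div_mul_eq_mul_div, ← mul_div_assoc, div_le_div_iff₀ (by positivity) (by positivity)]
  have h : s * (1 + s) ≤ 2 * (1 + s ^ 2) := by nlinarith [sq_nonneg (s - 1)]
  have := mul_le_mul_of_nonneg_left h (show 0 ≤ s * (1 + s ^ 2) by positivity)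
  nlinarith

lemma psi_lower (s : ℝ) (h1 : 1 ≤ s) (h2 : s ≤ 2) : 4 / 25 ≤ s ^ 2 / (1 + s ^ 2) ^ 2 := by
  rw [div_le_div_iff₀ (by positivity) (by positivity)]
  have a : 1 ≤ s ^ 2 := by nlinarith
  have b : s ^ 2 ≤ 4 := by nlinarith
  nlinarith

theorem flag {w : Fin n → ℝ} (hw0 : ∀ j, 0 < w j) (hw1 : ∑ j, w j ≤ 1)
    (Z : ℕ → E n →ₗ[ℝ] E d) (B : ℝ) (hB : ∀ t x, ‖Z t x‖ ^ 2 ≤ B * ‖x‖ ^ 2) (B0 : 0 ≤ B)
    (hc : ∀ t x, Z t (mask t x) = Z t x)
    (hm : ∀ s t, s ≤ t → ∀ x, mask s x = x → Z s x = 0 → Z t x = 0) (T : ℕ) :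
    Cut w {x | ∀ t ≤ T, ‖Z t x‖ ^ 2 ≤ B * (450000 * d)} (1 / 2) := by
  classical
  have hw : ∀ j, 0 ≤ w j := fun j => (hw0 j).le
  have hwle : ∀ j, w j ≤ 1 := fun j =>
    (single_le_sum (fun i _ => hw i) (mem_univ j)).trans hw1
  obtain ⟨H, hH⟩ : ∃ H : ℕ, ∀ j, 1 ≤ w j * 2 ^ H := by
    have : ∀ j, ∃ k : ℕ, 1 ≤ w j * 2 ^ k := fun j => by
      obtain ⟨k, hk⟩ := pow_unbounded_of_one_lt (w j)⁻¹ (show (1 : ℝ) < 2 by norm_num)
      exact ⟨k, by rw [inv_lt_iff_one_lt_mul₀' (hw0 j)] at hk; exact hk.le⟩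
    choose k hk using this
    refine ⟨∑ j, k j, fun j => (hk j).trans (mul_le_mul_of_nonneg_left ?_ (hw j))⟩
    exact pow_le_pow_right₀ (by norm_num) (single_le_sum (fun i _ => Nat.zero_le _) (mem_univ j))
  set lam : ℕ → ℝ := fun h => (2 ^ h)⁻¹ with hlam
  have lp : ∀ h, 0 < lam h := fun h => by positivity
  have ld : ∀ (s : ℝ) h, s / lam h = s * 2 ^ h := fun s h => div_inv_eq_mul _ _
  have nest : ∀ h, Nest (fun t => ((nullSp w (lam h) (Z t) t).starProjection :
      E n →ₗ[ℝ] E n)) := fun h => by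
    refine proj_nest (fun t => nullSp w (lam h) (Z t) t) fun s t hst y hy => ?_
    obtain ⟨y1, y2⟩ := mem_nullSp.1 hy
    refine mem_nullSp.2 ⟨by rw [← y1, mask_mask hst], hm s t hst _ ?_ y2⟩
    rw [mask_diag, y1]
  refine (Cut.biInter (range (H + 1)) fun h _ =>
    scale_cut hw (lp h) mask_nest (nest h) T).mono ?_ ?_
  · intro x hx t ht
    obtain ⟨u, ev, h1, h2, h3, h4⟩ := exists_eigen (LinearMap.ker (Z t))ᗮ (fun j => w j ^ 2)
    have hr : Module.finrank ℝ (LinearMap.ker (Z t))ᗮ ≤ d := by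
      have a := (LinearMap.ker (Z t)).finrank_add_finrank_orthogonal
      have b := (Z t).finrank_range_add_finrank_ker
      have c := (LinearMap.range (Z t)).finrank_le
      rw [finrank_euclideanSpace_fin] at c
      omega
    generalize Module.finrank ℝ (LinearMap.ker (Z t))ᗮ = r at *
    have h4' : ∀ y, (∀ i, ⟪u i, y⟫_ℝ = 0) → Z t y = 0 := fun y hy => by
      have := h4 y hy
      rwa [Submodule.orthogonal_orthogonal, LinearMap.mem_ker] at this
    have un : ∀ i, ∑ j, u i j * u i j = 1 := fun i => by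
      have := h1 i i
      rw [if_pos rfl] at this
      rw [← this]
      simp only [PiLp.inner_apply, RCLike.inner_apply, conj_trivial]
    have evq : ∀ i, ev i = ∑ j, w j ^ 2 * (u i j * u i j) := fun i => by
      have := h3 i i
      rw [if_pos rfl, inner_diag_eq] at this
      exact this.symm
    have ev0 : ∀ i, 0 ≤ ev i := fun i => by
      rw [evq]
      exact sum_nonneg fun j _ => mul_nonneg (sq_nonneg _) (mul_self_nonneg _)
    set ξ : Fin r → ℝ := fun i => √(ev i) with hξ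
    have ξ0 : ∀ i, 0 ≤ ξ i := fun i => Real.sqrt_nonneg _
    have ξ2 : ∀ i, ξ i ^ 2 = ev i := fun i => Real.sq_sqrt (ev0 i)
    have ξ1 : ∀ i, ξ i ≤ 1 := fun i => by
      rw [← pow_le_pow_iff_left₀ (ξ0 i) zero_le_one two_ne_zero, ξ2, evq, one_pow, ← un i]
      exact sum_le_sum fun j _ => mul_le_of_le_one_left (mul_self_nonneg _)
        (pow_le_one₀ (hw j) (hwle j))
    have ξH : ∀ i, 1 ≤ ξ i * 2 ^ H := fun i => by
      rw [← pow_le_pow_iff_left₀ zero_le_one (mul_nonneg (ξ0 i) (by positivity)) two_ne_zero,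
        mul_pow, ξ2, evq, one_pow, sum_mul, ← un i]
      refine sum_le_sum fun j _ => ?_
      have := one_le_pow₀ (n := 2) (hH j)
      rw [mul_pow] at this
      have := mul_le_mul_of_nonneg_left this (mul_self_nonneg (u i j))
      linarith
    have ξp : ∀ i, 0 < ξ i := fun i => by
      by_contra h
      have : ξ i = 0 := le_antisymm (not_lt.1 h) (ξ0 i)
      have := ξH i
      simp_all
      linarith
    simp only [← ξ2] at h3
    have form := fun h y => ridge_formula (lp h) (hc t) u ξ h1 h2 h3 h4' y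
    set L : ℕ → E n →ₗ[ℝ] E n := fun h =>
      ridge w (lam h) (mask t) ((nullSp w (lam h) (Z t) t).starProjection : E n →ₗ[ℝ] E n)
      with hL
    have nrm : ∀ h y, ‖L h y‖ ^ 2 = ∑ i, (ξ i * 2 ^ h) ^ 2 / (1 + (ξ i * 2 ^ h) ^ 2) ^ 2
        * ⟪u i, y⟫_ℝ ^ 2 := fun h y => by
      simp only [hL]
      rw [form, ridge_norm u ξ h3]
      simp only [ld]
    have hnu : ∀ h, nu w (lam h) (L h)
        ≤ 2 * ∑ i, (ξ i * 2 ^ h) / (1 + (ξ i * 2 ^ h) ^ 2) := fun h => by
      simp only [nu, hsw, nrm, inner_ee, mul_sum, ld]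
      rw [sum_comm]
      refine sum_le_sum fun i _ => le_trans ?_ (psi_bound _ (by have := ξ0 i; positivity))
      have p : 0 < ξ i * 2 ^ h := by have := ξp i; positivity
      have a : ∑ j, (1 + w j * 2 ^ h) * u i j ^ 2 ≤ 1 + ξ i * 2 ^ h := by
        have b : ∑ j, (1 + w j * 2 ^ h) * u i j ^ 2
            ≤ ∑ j, ((1 + ξ i * 2 ^ h / 2) * (u i j * u i j)
              + (2 ^ h / (2 * ξ i)) * (w j ^ 2 * (u i j * u i j))) := by
          refine sum_le_sum fun j _ => ?_
          have q := ξp i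
          have c : w j ≤ ξ i / 2 + w j ^ 2 / (2 * ξ i) := by
            rw [div_add_div _ _ (by positivity) (by positivity), le_div_iff₀ (by positivity)]
            nlinarith [sq_nonneg (w j - ξ i)]
          have := mul_le_mul_of_nonneg_right c
            (show 0 ≤ (2 : ℝ) ^ h * (u i j * u i j) from
              mul_nonneg (by positivity) (mul_self_nonneg _))
          calc (1 + w j * 2 ^ h) * u i j ^ 2
              = u i j * u i j + w j * (2 ^ h * (u i j * u i j)) := by ring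
            _ ≤ u i j * u i j + (ξ i / 2 + w j ^ 2 / (2 * ξ i)) * (2 ^ h * (u i j * u i j)) := by
              linarith
            _ = _ := by ring
        rw [sum_add_distrib, ← mul_sum, ← mul_sum, un, ← evq, ← ξ2] at b
        refine b.trans (le_of_eq ?_)
        have := (ξp i).ne'
        field_simp
        ring
      calc ∑ j, (1 + w j * 2 ^ h) * ((ξ i * 2 ^ h) ^ 2 / (1 + (ξ i * 2 ^ h) ^ 2) ^ 2 * u i j ^ 2)
          = (ξ i * 2 ^ h) ^ 2 / (1 + (ξ i * 2 ^ h) ^ 2) ^ 2
            * ∑ j, (1 + w j * 2 ^ h) * u i j ^ 2 := by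
            rw [mul_sum]
            exact sum_congr rfl fun j _ => by ring
        _ ≤ _ := mul_le_mul_of_nonneg_left a (by positivity)
    have hsel : ∀ i, ∃ h ∈ range (H + 1), 1 ≤ ξ i * 2 ^ h ∧ ξ i * 2 ^ h ≤ 2 := fun i => by
      have ex : ∃ h : ℕ, 1 ≤ ξ i * 2 ^ h := ⟨H, ξH i⟩
      refine ⟨Nat.find ex, mem_range.2 (Nat.lt_succ_of_le (Nat.find_min' ex (ξH i))),
        Nat.find_spec ex, ?_⟩
      rcases h0 : Nat.find ex with _ | k
      · have := ξ1 i
        simp only [pow_zero]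
        linarith
      · have := Nat.find_min ex (show k < Nat.find ex by omega)
        rw [pow_succ]
        linarith
    choose sel s1 s2 s3 using hsel
    have main : ∑ i, ⟪u i, x⟫_ℝ ^ 2 ≤ 450000 * d := by
      have a1 : (4 / 25) * ∑ i, ⟪u i, x⟫_ℝ ^ 2 ≤ ∑ h ∈ univ.image sel, ‖L h x‖ ^ 2 := by
        simp only [nrm]
        rw [sum_comm, mul_sum]
        refine sum_le_sum fun i _ => le_trans ?_ (single_le_sum
          (f := fun h => (ξ i * 2 ^ h) ^ 2 / (1 + (ξ i * 2 ^ h) ^ 2) ^ 2 * ⟪u i, x⟫_ℝ ^ 2)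
          (fun h _ => by positivity) (mem_image_of_mem sel (mem_univ i)))
        exact mul_le_mul_of_nonneg_right (psi_lower _ (s2 i) (s3 i)) (sq_nonneg _)
      have sub : univ.image sel ⊆ range (H + 1) := image_subset_iff.2 fun i _ => s1 i
      have a2 : ∑ h ∈ univ.image sel, ‖L h x‖ ^ 2
          ≤ ∑ h ∈ univ.image sel, 9000 * (nu w (lam h) (L h) + 1) :=
        sum_le_sum fun h hh => hx h (sub hh) t ht
      have a3 : ∑ h ∈ univ.image sel, nu w (lam h) (L h) ≤ 7 * r := by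
        refine (sum_le_sum fun h _ => hnu h).trans ?_
        refine (sum_le_sum_of_subset_of_nonneg sub fun h _ _ => ?_).trans ?_
        · exact mul_nonneg (by norm_num) (sum_nonneg fun i _ => by have := ξ0 i; positivity)
        · rw [← mul_sum, sum_comm]
          have := sum_le_sum fun i (_ : i ∈ univ) => tele_sum (ξ i) (ξ0 i) (H + 1)
          rw [sum_const, card_univ, Fintype.card_fin, nsmul_eq_mul] at this
          linarith
      have a4 : ((univ.image sel).card : ℝ) ≤ r := by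
        exact_mod_cast card_image_le.trans (by simp)
      rw [← mul_sum, sum_add_distrib, sum_const, nsmul_eq_mul] at a2
      have a5 : (r : ℝ) ≤ d := by exact_mod_cast hr
      linarith
    have e : Z t x = Z t (∑ i, ⟪u i, x⟫_ℝ • u i) := by
      rw [← sub_eq_zero, ← map_sub]
      refine h4' _ fun k => ?_
      rw [inner_sub_right, inner_sum]
      simp [real_inner_smul_right, h1]
    rw [e]
    refine (hB t _).trans (mul_le_mul_of_nonneg_left ?_ B0)
    rw [norm_sq_sum u (fun _ => 1) _ h1]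
    simpa using main
  · have a : ∀ h, lam h * (8 * ∑ j, (w j / lam h) ^ 2 / (1 + (w j / lam h) ^ 2) + 1) / 108
        = (8 * ∑ j, w j * ((w j * 2 ^ h) / (1 + (w j * 2 ^ h) ^ 2)) + (1 / 2) ^ h) / 108 := by
      intro h
      congr 1
      simp only [ld, mul_add, mul_one, mul_sum]
      congr 1
      · refine sum_congr rfl fun j _ => ?_
        simp only [hlam]
        field_simp
      · simp [hlam]
    simp only [a]
    rw [← sum_div, sum_add_distrib, ← mul_sum, sum_comm]
    have b1 : ∑ j, ∑ h ∈ range (H + 1), w j * ((w j * 2 ^ h) / (1 + (w j * 2 ^ h) ^ 2))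
        ≤ 7 / 2 := by
      calc _ ≤ ∑ j, w j * (7 / 2) := sum_le_sum fun j _ => by
            rw [← mul_sum]
            exact mul_le_mul_of_nonneg_left (tele_sum _ (hw j) _) (hw j)
        _ ≤ 7 / 2 := by rw [← sum_mul]; linarith
    have b2 := sum_geometric_two_le (H + 1)
    linarith

end Vale.Agent.P262
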