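import Mathlib

/-! The `L²` splitting principle: a finite family of square integrable states with small shift
energies produces a signing adapted to a triangular family of predictors. -/

namespace Vale.Agent.P262

open MeasureTheory Finset

lemma sort_contr (a b c d : ℝ) :
    (max a b - max c d) ^ 2 + (min a b - min c d) ^ 2 ≤ (a - c) ^ 2 + (b - d) ^ 2 := by
  rcases le_total a b with h | h <;> rcases le_total c d with k | k <;>
    simp only [max_eq_left, max_eq_right, min_eq_left, min_eq_right, h, k] <;> nlinarith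

lemma sort_sq (a b : ℝ) : (max a b) ^ 2 + (min a b) ^ 2 = a ^ 2 + b ^ 2 := by
  rcases le_total a b with h | h <;>
    simp only [max_eq_left, max_eq_right, min_eq_left, min_eq_right, h]
  ring

lemma sort_diff (a b : ℝ) :
    (max a b) ^ 2 - (min a b) ^ 2 ≤ 6 * (a - b) ^ 2 + (a ^ 2 + b ^ 2) / 12 := by
  rcases le_total a b with h | h <;>
    simp only [max_eq_left, max_eq_right, min_eq_left, min_eq_right, h]
  · nlinarith [sq_nonneg (12 * (b - a) - (a + b)), sq_nonneg (a - b)]
  · nlinarith [sq_nonneg (12 * (a - b) - (a + b)), sq_nonneg (a - b)]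

lemma pick_sign (A β : ℝ) (hβ : 5 / 12 ≤ β) (hA : |A| ≤ 3 * (1 - β) + 1 / 2) :
    ∃ t : ℝ, |t| ≤ 3 ∧ (A + β * t = 1 ∨ A + β * t = -1) := by
  have hb : 0 < β := by linarith
  rw [abs_le] at hA
  by_cases h : 1 ≤ A + 3 * β
  · refine ⟨(1 - A) / β, ?_, Or.inl (by field_simp; ring)⟩
    rw [abs_le, le_div_iff₀ hb, div_le_iff₀ hb]
    constructor <;> linarith
  · refine ⟨(-1 - A) / β, ?_, Or.inr (by field_simp; ring)⟩
    rw [abs_le, le_div_iff₀ hb, div_le_iff₀ hb]
    constructor <;> linarith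

variable {V : Type*} [AddCommGroup V] [Module ℝ V] [MeasurableSpace V] [MeasurableAdd V]
  {μ : Measure V} [μ.IsAddRightInvariant]

omit [Module ℝ V] in
lemma memLp_shift {f : V → ℝ} (hf : MemLp f 2 μ) (u : V) : MemLp (fun x => f (x + u)) 2 μ :=
  hf.comp_measurePreserving (measurePreserving_add_right μ u)

/-- The two level functions. -/
noncomputable def lev (f : V → ℝ) (u : V) (b : Bool) (x : V) : ℝ :=
  (if b then min (f (x + -u)) (f (x + u)) else max (f (x + -u)) (f (x + u))) / √2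

/-- The two level bodies. -/
def levSet (C : Set V) (U : V) (b : Bool) : Set V :=
  if b then {x | ∀ t : ℝ, |t| ≤ 3 → x + t • U ∈ C} else {x | ∃ t : ℝ, |t| ≤ 3 ∧ x + t • U ∈ C}

omit [Module ℝ V] in
lemma lev_memLp {f : V → ℝ} (hf : MemLp f 2 μ) (u : V) (b : Bool) : MemLp (lev f u b) 2 μ := by
  have h1 := memLp_shift hf (-u)
  have h2 := memLp_shift hf u
  cases b
  · have := (h1.sup h2).const_mul (√2)⁻¹
    convert this using 2 with x
    simp [lev, div_eq_inv_mul]
  · have := (h1.inf h2).const_mul (√2)⁻¹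
    convert this using 2 with x
    simp [lev, div_eq_inv_mul]

omit [Module ℝ V] [MeasurableSpace V] [MeasurableAdd V] in
lemma lev_nonneg {f : V → ℝ} (hf : ∀ x, 0 ≤ f x) (u : V) (b : Bool) (x : V) :
    0 ≤ lev f u b x := by
  unfold lev
  refine div_nonneg ?_ (Real.sqrt_nonneg _)
  split_ifs
  · exact le_min (hf _) (hf _)
  · exact le_max_of_le_left (hf _)

omit [Module ℝ V] in
lemma lev_mass {f : V → ℝ} (hf : MemLp f 2 μ) (u : V) :
    ∫ x, lev f u true x ^ 2 ∂μ + ∫ x, lev f u false x ^ 2 ∂μ = ∫ x, f x ^ 2 ∂μ := by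
  rw [← integral_add (lev_memLp hf u true).integrable_sq (lev_memLp hf u false).integrable_sq]
  have e : ∀ x, lev f u true x ^ 2 + lev f u false x ^ 2
      = (1 / 2) * f (x + -u) ^ 2 + (1 / 2) * f (x + u) ^ 2 := by
    intro x
    have := sort_sq (f (x + -u)) (f (x + u))
    simp only [lev, div_pow, Real.sq_sqrt (show (0 : ℝ) ≤ 2 by norm_num), if_true,
      Bool.false_eq_true, if_false]
    linarith
  simp_rw [e]
  rw [integral_add ((memLp_shift hf (-u)).integrable_sq.const_mul _)
    ((memLp_shift hf u).integrable_sq.const_mul _), integral_const_mul, integral_const_mul,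
    integral_add_right_eq_self (fun x => f x ^ 2) (-u),
    integral_add_right_eq_self (fun x => f x ^ 2) u]
  ring

omit [Module ℝ V] in
lemma energy_integrable {f : V → ℝ} (hf : MemLp f 2 μ) (s : V) :
    Integrable (fun x => (f (x + s) - f x) ^ 2) μ :=
  ((memLp_shift hf s).sub hf).integrable_sq

omit [Module ℝ V] in
lemma lev_energy {f : V → ℝ} (hf : MemLp f 2 μ) (u s : V) :
    ∫ x, (lev f u true (x + s) - lev f u true x) ^ 2 ∂μ
      + ∫ x, (lev f u false (x + s) - lev f u false x) ^ 2 ∂μ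
      ≤ ∫ x, (f (x + s) - f x) ^ 2 ∂μ := by
  rw [← integral_add (energy_integrable (lev_memLp hf u true) s)
    (energy_integrable (lev_memLp hf u false) s)]
  have i1 : Integrable (fun x => (f (x + -u + s) - f (x + -u)) ^ 2) μ :=
    (energy_integrable hf s).comp_add_right (-u)
  have i2 : Integrable (fun x => (f (x + u + s) - f (x + u)) ^ 2) μ :=
    (energy_integrable hf s).comp_add_right u
  have e : ∫ x, (f (x + s) - f x) ^ 2 ∂μ = ∫ x, ((1 / 2) * (f (x + -u + s) - f (x + -u)) ^ 2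
      + (1 / 2) * (f (x + u + s) - f (x + u)) ^ 2) ∂μ := by
    rw [integral_add (i1.const_mul _) (i2.const_mul _), integral_const_mul, integral_const_mul,
      integral_add_right_eq_self (fun x => (f (x + s) - f x) ^ 2) (-u),
      integral_add_right_eq_self (fun x => (f (x + s) - f x) ^ 2) u]
    ring
  rw [e]
  refine integral_mono ((energy_integrable (lev_memLp hf u true) s).add
    (energy_integrable (lev_memLp hf u false) s)) ((i1.const_mul _).add (i2.const_mul _)) ?_
  intro x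
  have := sort_contr (f (x + -u + s)) (f (x + u + s)) (f (x + -u)) (f (x + u))
  simp only [lev, ← sub_div, div_pow, Real.sq_sqrt (show (0 : ℝ) ≤ 2 by norm_num), if_true,
    Bool.false_eq_true, if_false, add_right_comm x s]
  linarith

omit [Module ℝ V] in
lemma lev_gap {f : V → ℝ} (hf : MemLp f 2 μ) (u : V) :
    ∫ x, lev f u false x ^ 2 ∂μ - ∫ x, lev f u true x ^ 2 ∂μ
      ≤ 3 * ∫ x, (f (x + (u + u)) - f x) ^ 2 ∂μ + (1 / 12) * ∫ x, f x ^ 2 ∂μ := by
  rw [← integral_sub (lev_memLp hf u false).integrable_sq (lev_memLp hf u true).integrable_sq]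
  have i1 : Integrable (fun x => (f (x + -u + (u + u)) - f (x + -u)) ^ 2) μ :=
    (energy_integrable hf (u + u)).comp_add_right (-u)
  have j1 := (memLp_shift hf (-u)).integrable_sq
  have j2 := (memLp_shift hf u).integrable_sq
  have e : 3 * ∫ x, (f (x + (u + u)) - f x) ^ 2 ∂μ + (1 / 12) * ∫ x, f x ^ 2 ∂μ
      = ∫ x, (3 * (f (x + -u + (u + u)) - f (x + -u)) ^ 2
        + ((1 / 24) * f (x + -u) ^ 2 + (1 / 24) * f (x + u) ^ 2)) ∂μ := by
    have j3 : Integrable (fun x => (1 / 24) * f (x + -u) ^ 2 + (1 / 24) * f (x + u) ^ 2) μ :=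
      (j1.const_mul _).add (j2.const_mul _)
    rw [integral_add (i1.const_mul _) j3,
      integral_add (j1.const_mul _) (j2.const_mul _), integral_const_mul, integral_const_mul,
      integral_const_mul,
      integral_add_right_eq_self (fun x => (f (x + (u + u)) - f x) ^ 2) (-u),
      integral_add_right_eq_self (fun x => f x ^ 2) (-u),
      integral_add_right_eq_self (fun x => f x ^ 2) u]
    ring
  rw [e]
  refine integral_mono ((lev_memLp hf u false).integrable_sq.sub
    (lev_memLp hf u true).integrable_sq)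
    ((i1.const_mul _).add ((j1.const_mul _).add (j2.const_mul _))) ?_
  intro x
  have := sort_diff (f (x + -u)) (f (x + u))
  have e2 : x + -u + (u + u) = x + u := by abel
  simp only [lev, div_pow, Real.sq_sqrt (show (0 : ℝ) ≤ 2 by norm_num), if_true,
    Bool.false_eq_true, if_false, e2]
  nlinarith

omit [MeasurableSpace V] [MeasurableAdd V] in
lemma levSet_convex {C : Set V} (hC : Convex ℝ C) (U : V) (b : Bool) :
    Convex ℝ (levSet C U b) := by
  cases b
  · rintro x ⟨s, hs, hx⟩ y ⟨t, ht, hy⟩ a b ha hb hab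
    refine ⟨a * s + b * t, ?_, ?_⟩
    · rw [abs_le] at *
      constructor <;> nlinarith [hs.1, hs.2, ht.1, ht.2]
    · have := hC hx hy ha hb hab
      convert this using 1
      module
  · intro x hx y hy a b ha hb hab t ht
    have := hC (hx t ht) (hy t ht) ha hb hab
    convert this using 1
    have e : b = 1 - a := by linarith
    subst e
    module

omit [MeasurableSpace V] [MeasurableAdd V] in
lemma levSet_symm {C : Set V} (hC : ∀ x ∈ C, -x ∈ C) (U : V) (b : Bool) :
    ∀ x ∈ levSet C U b, -x ∈ levSet C U b := by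
  cases b
  · rintro x ⟨s, hs, hx⟩
    refine ⟨-s, by simpa using hs, ?_⟩
    convert hC _ hx using 1
    module
  · intro x hx t ht
    have := hC _ (hx (-t) (by simpa using ht))
    convert this using 1
    module

omit [MeasurableSpace V] [MeasurableAdd V] in
lemma lev_supp {f : V → ℝ} {C : Set V} (hC : Convex ℝ C) (hf0 : ∀ x, 0 ≤ f x)
    (hf : ∀ x, f x ≠ 0 → x ∈ C)
    (U : V) (b : Bool) (x : V) (hx : lev f ((3 : ℝ) • U) b x ≠ 0) : x ∈ levSet C U b := by
  have hx' : (if b then min (f (x + -((3 : ℝ) • U))) (f (x + (3 : ℝ) • U))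
      else max (f (x + -((3 : ℝ) • U))) (f (x + (3 : ℝ) • U))) ≠ 0 := by
    intro h
    apply hx
    unfold lev
    rw [h, zero_div]
  cases b
  · simp only [Bool.false_eq_true, if_false] at hx'
    by_cases h : f (x + (3 : ℝ) • U) = 0
    · refine ⟨-3, by norm_num, hf _ ?_⟩
      intro h2
      apply hx'
      rw [neg_smul] at h2
      rw [h, h2, max_self]
    · exact ⟨3, by norm_num, hf _ h⟩
  · simp only [if_true] at hx'
    have h1 : f (x + -((3 : ℝ) • U)) ≠ 0 := by
      intro h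
      apply hx'
      rw [h, min_eq_left (hf0 _)]
    have h2 : f (x + (3 : ℝ) • U) ≠ 0 := by
      intro h
      apply hx'
      rw [h, min_eq_right (hf0 _)]
    intro t ht
    rw [abs_le] at ht
    have := hC (hf _ h1) (hf _ h2) (a := (3 - t) / 6) (b := (3 + t) / 6) (by linarith)
      (by linarith) (by ring)
    convert this using 1
    module

lemma sumB {Ω M : Type*} [Fintype Ω] [AddCommMonoid M] (g : Ω × Bool → M) :
    ∑ p, g p = ∑ ω, (g (ω, true) + g (ω, false)) := by
  rw [Fintype.sum_prod_type]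
  simp

theorem split (U : ℕ → V) (ℓ : ℕ → V →ₗ[ℝ] ℝ) (n : ℕ) :
    ∀ (Ω : Type) [Fintype Ω] (f : Ω → V → ℝ) (C : Ω → Set V),
    (∀ ω, MemLp (f ω) 2 μ) → (∀ ω x, 0 ≤ f ω x) → (∑ ω, ∫ x, f ω x ^ 2 ∂μ = 1) →
    (∀ ω, Convex ℝ (C ω)) → (∀ ω, ∀ x ∈ C ω, -x ∈ C ω) → (∀ ω x, f ω x ≠ 0 → x ∈ C ω) →
    (∀ j < n, ∑ ω, ∫ x, (f ω (x + (6 : ℝ) • U j) - f ω x) ^ 2 ∂μ ≤ 1 / 36) →
    (∀ k j, k ≤ j → j < n → ℓ k (U j) = 0) → (∀ k < n, ∀ ω, ∀ x ∈ C ω, |ℓ k x| ≤ 1 / 2) →
    ∃ (ζ : ℕ → ℝ) (c : Ω → V), (∀ ω, ∫ x, f ω x ^ 2 ∂μ ≠ 0 → c ω ∈ C ω) ∧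
      ∑ ω, (∫ x, f ω x ^ 2 ∂μ) • c ω = ∑ j ∈ range n, ζ j • U j ∧
      ∀ k < n, ζ k + ℓ k (∑ j ∈ range n, ζ j • U j) = 1 ∨
        ζ k + ℓ k (∑ j ∈ range n, ζ j • U j) = -1 := by
  induction n with
  | zero =>
    intro Ω _ f C _ _ _ hC hs hf _ _ _
    refine ⟨fun _ => 0, fun _ => 0, fun ω h => ?_, by simp, by simp⟩
    by_contra h0
    apply h
    have : ∀ x, f ω x = 0 := by
      intro x
      by_contra hx
      apply h0
      have := hC ω (hf ω x hx) (hs ω x (hf ω x hx)) (a := 1 / 2) (b := 1 / 2) (by norm_num)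
        (by norm_num) (by norm_num)
      simpa using this
    simp [this]
  | succ n ih =>
    intro Ω _ f C hL h0 h1 hC hs hf hE hU hℓ
    set u : V := (3 : ℝ) • U n with hu
    obtain ⟨ζ, c, hc, hsum, hsign⟩ := ih (Ω × Bool) (fun p => lev (f p.1) u p.2)
      (fun p => levSet (C p.1) (U n) p.2) (fun p => lev_memLp (hL _) _ _)
      (fun p => lev_nonneg (h0 _) _ _)
      (by rw [sumB]; simp_rw [lev_mass (hL _)]; exact h1)
      (fun p => levSet_convex (hC _) _ _) (fun p => levSet_symm (hs _) _ _)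
      (fun p => lev_supp (hC _) (h0 _) (hf _) _ _)
      (fun j hj => by
        rw [sumB]
        exact le_trans (sum_le_sum fun ω _ => lev_energy (hL ω) u _) (hE j (by omega)))
      (fun k j hkj hj => hU k j hkj (by omega))
      (fun k hk p x hx => by
        obtain ⟨ω, b⟩ := p
        cases b
        · obtain ⟨t, -, ht⟩ := hx
          have := hℓ k (by omega) ω _ ht
          rwa [map_add, map_smul, hU k n hk.le (by omega), smul_zero, add_zero] at this
        · have := hℓ k (by omega) ω _ (hx 0 (by norm_num))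
          simpa using this)
    set p1 : Ω → ℝ := fun ω => ∫ x, lev (f ω) u true x ^ 2 ∂μ with hp1
    set p0 : Ω → ℝ := fun ω => ∫ x, lev (f ω) u false x ^ 2 ∂μ with hp0
    have p1n : ∀ ω, 0 ≤ p1 ω := fun ω => integral_nonneg fun x => sq_nonneg _
    have p0n : ∀ ω, 0 ≤ p0 ω := fun ω => integral_nonneg fun x => sq_nonneg _
    have hp : ∀ ω, ∫ x, f ω x ^ 2 ∂μ = p1 ω + p0 ω := fun ω => (lev_mass (hL ω) u).symm
    have hs0 : ∀ ω, ∃ s : ℝ, |s| ≤ 3 ∧ (p0 ω ≠ 0 → c (ω, false) + s • U n ∈ C ω) := by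
      intro ω
      by_cases h : p0 ω = 0
      · exact ⟨0, by norm_num, fun h' => absurd h h'⟩
      · obtain ⟨s, hs1, hs2⟩ := hc (ω, false) h
        exact ⟨s, hs1, fun _ => hs2⟩
    choose s hs1 hs2 using hs0
    set y : V := ∑ j ∈ range n, ζ j • U j with hy
    set β : ℝ := ∑ ω, p1 ω with hβ
    have htot : β + ∑ ω, p0 ω = 1 := by
      rw [hβ, ← sum_add_distrib, ← h1]
      exact sum_congr rfl fun ω _ => (hp ω).symm
    have hβ5 : 5 / 12 ≤ β := by
      have e6 : u + u = (6 : ℝ) • U n := by rw [hu]; module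
      have a1 : ∑ ω, (p0 ω - p1 ω) ≤ ∑ ω, (3 * ∫ x, (f ω (x + (6 : ℝ) • U n) - f ω x) ^ 2 ∂μ
          + (1 / 12) * ∫ x, f ω x ^ 2 ∂μ) :=
        sum_le_sum fun ω _ => by
          have := lev_gap (hL ω) u
          rwa [e6] at this
      rw [sum_sub_distrib, sum_add_distrib, ← mul_sum, ← mul_sum, h1] at a1
      have := hE n (by omega)
      linarith
    -- the recombined points
    have key : ∀ t : ℝ, |t| ≤ 3 → ∃ c' : Ω → V, (∀ ω, ∫ x, f ω x ^ 2 ∂μ ≠ 0 → c' ω ∈ C ω) ∧
        ∑ ω, (∫ x, f ω x ^ 2 ∂μ) • c' ω = y + (∑ ω, p0 ω * s ω + β * t) • U n := by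
      intro t ht
      refine ⟨fun ω => (p1 ω / (p1 ω + p0 ω)) • (c (ω, true) + t • U n)
        + (p0 ω / (p1 ω + p0 ω)) • (c (ω, false) + s ω • U n), fun ω hω => ?_, ?_⟩
      · rw [hp] at hω
        by_cases a : p0 ω = 0
        · have b : p1 ω ≠ 0 := by simpa [a] using hω
          have := hc (ω, true) b t ht
          simpa [a, b] using this
        · by_cases b : p1 ω = 0
          · simpa [a, b] using hs2 ω a
          · have hpos : 0 < p1 ω + p0 ω := lt_of_le_of_ne (add_nonneg (p1n ω) (p0n ω)) hω.symm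
            exact hC ω (hc (ω, true) b t ht) (hs2 ω a) (div_nonneg (p1n ω) hpos.le)
              (div_nonneg (p0n ω) hpos.le) (by field_simp)
      · rw [← hsum, sumB, hβ, sum_mul, ← sum_add_distrib, sum_smul, ← sum_add_distrib]
        refine sum_congr rfl fun ω _ => ?_
        rw [hp]
        change _ = p1 ω • c (ω, true) + p0 ω • c (ω, false) + _
        by_cases a : p1 ω + p0 ω = 0
        · have a1 : p1 ω = 0 := by linarith [p1n ω, p0n ω]
          have a0 : p0 ω = 0 := by linarith [p1n ω, p0n ω]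
          simp [a1, a0]
        · rw [smul_add, smul_smul, smul_smul, mul_div_cancel₀ _ a, mul_div_cancel₀ _ a]
          module
    have hℓy : |ℓ n y| ≤ 1 / 2 := by
      obtain ⟨c', hc1, hc2⟩ := key 0 (by norm_num)
      have e : ℓ n y = ∑ ω, (∫ x, f ω x ^ 2 ∂μ) * ℓ n (c' ω) := by
        have := congrArg (ℓ n) hc2
        rw [map_add, map_smul, hU n n le_rfl (by omega), smul_zero, add_zero, map_sum] at this
        rw [← this]
        simp
      rw [e]
      refine le_trans (abs_sum_le_sum_abs _ _) ?_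
      calc ∑ ω, |(∫ x, f ω x ^ 2 ∂μ) * ℓ n (c' ω)| ≤ ∑ ω, (∫ x, f ω x ^ 2 ∂μ) * (1 / 2) := by
            refine sum_le_sum fun ω _ => ?_
            have hn : 0 ≤ ∫ x, f ω x ^ 2 ∂μ := integral_nonneg fun x => sq_nonneg _
            rw [abs_mul, abs_of_nonneg hn]
            by_cases a : ∫ x, f ω x ^ 2 ∂μ = 0
            · simp [a]
            · exact mul_le_mul_of_nonneg_left (hℓ n (by omega) ω _ (hc1 ω a)) hn
        _ = 1 / 2 := by rw [← sum_mul, h1, one_mul]
    have hA : |∑ ω, p0 ω * s ω| ≤ 3 * (1 - β) := by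
      refine le_trans (abs_sum_le_sum_abs _ _) ?_
      rw [show 1 - β = ∑ ω, p0 ω by linarith, mul_sum]
      refine sum_le_sum fun ω _ => ?_
      rw [abs_mul, abs_of_nonneg (p0n ω), mul_comm]
      exact mul_le_mul_of_nonneg_right (hs1 ω) (p0n ω)
    obtain ⟨t, ht, hsg⟩ := pick_sign (∑ ω, p0 ω * s ω + ℓ n y) β hβ5
      (le_trans (abs_add_le _ _) (add_le_add hA hℓy))
    obtain ⟨c', hc1, hc2⟩ := key t ht
    have e : ∑ j ∈ range (n + 1), Function.update ζ n (∑ ω, p0 ω * s ω + β * t) j • U j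
        = y + (∑ ω, p0 ω * s ω + β * t) • U n := by
      rw [sum_range_succ, Function.update_self, hy]
      congr 1
      refine sum_congr rfl fun j hj => ?_
      rw [Function.update_of_ne (mem_range.1 hj).ne]
    refine ⟨Function.update ζ n (∑ ω, p0 ω * s ω + β * t), c', hc1, by rw [e, hc2], ?_⟩
    intro k hk
    rw [e, map_add, map_smul, hU k n (by omega) (by omega), smul_zero, add_zero]
    rcases Nat.lt_succ_iff_lt_or_eq.1 hk with h | h
    · rw [Function.update_of_ne h.ne]
      exact hsign k h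
    · subst h
      rw [Function.update_self]
      rcases hsg with h | h
      · left; linarith
      · right; linarith

end Vale.Agent.P262
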