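import Mathlib
import Vale.Agent.P262.Flag
import Vale.Agent.P262.Split

/-! The signed prefix bound. -/

namespace Vale.Agent.P262

open MeasureTheory Finset
open scoped InnerProductSpace

variable {n d : ℕ}

lemma minimax (S : Set (Fin n → ℝ)) (hS : ∀ e ∈ S, ∀ j, 0 ≤ e j) {c c' : ℝ} (hc0 : 0 ≤ c)
    (hc : c < c')
    (h : ∀ w : Fin n → ℝ, (∀ j, 0 < w j) → ∑ j, w j ≤ 1 → ∃ e ∈ S, ∑ j, w j * e j ≤ c) :
    ∃ x ∈ convexHull ℝ S, ∀ j, x j < c' := by
  by_contra hne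
  have hconv : Convex ℝ {x : Fin n → ℝ | ∀ j, x j < c'} := by
    have : {x : Fin n → ℝ | ∀ j, x j < c'} = Set.univ.pi fun _ => Set.Iio c' := by
      ext x; simp
    rw [this]
    exact convex_pi fun _ _ => convex_Iio _
  have hopen : IsOpen {x : Fin n → ℝ | ∀ j, x j < c'} := by
    have : {x : Fin n → ℝ | ∀ j, x j < c'} = Set.univ.pi fun _ => Set.Iio c' := by
      ext x; simp
    rw [this]
    exact isOpen_set_pi Set.finite_univ fun _ _ => isOpen_Iio
  obtain ⟨f, u, h1, h2⟩ := geometric_hahn_banach_open hconv hopen (convex_convexHull ℝ S)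
    (Set.disjoint_left.2 fun x hx hx' => hne ⟨x, hx', hx⟩)
  set φ : Fin n → ℝ := fun j => f (Pi.single j 1) with hφ
  have hf : ∀ x, f x = ∑ j, x j * φ j := fun x => by
    conv_lhs => rw [pi_eq_sum_univ' x]
    simp [hφ, map_sum]
  have hcu : c * ∑ j, φ j < u := by
    have := h1 (fun _ => c) fun _ => hc
    rwa [hf, ← mul_sum] at this
  have φ0 : ∀ j, 0 ≤ φ j := by
    intro j
    by_contra hj
    have hj' : 0 < -φ j := by linarith [not_le.1 hj]
    set r := (u - c * ∑ j, φ j) / (-φ j) with hr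
    have r0 : 0 ≤ r := div_nonneg (by linarith) hj'.le
    have := h1 ((fun _ => c) - r • Pi.single j 1) fun i => by
      simp only [Pi.sub_apply, Pi.smul_apply, smul_eq_mul, Pi.single_apply]
      split_ifs <;> linarith
    rw [map_sub, map_smul, hf, ← mul_sum, smul_eq_mul] at this
    have e : r * (-φ j) = u - c * ∑ j, φ j := div_mul_cancel₀ _ hj'.ne'
    change c * ∑ j, φ j - r * φ j < u at this
    linarith
  have Φ0 : 0 ≤ ∑ j, φ j := sum_nonneg fun j _ => φ0 j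
  set τ := (u - c * ∑ j, φ j) / ((n + 1) * c + 1) with hτ
  have τ0 : 0 < τ := div_pos (by linarith) (by positivity)
  have eτ : τ * ((n + 1) * c + 1) = u - c * ∑ j, φ j := div_mul_cancel₀ _ (by positivity)
  have D0 : 0 < ∑ j, φ j + (n + 1) * τ := by positivity
  obtain ⟨e, he, hle⟩ := h (fun j => (φ j + τ) / (∑ j, φ j + (n + 1) * τ))
    (fun j => div_pos (by linarith [φ0 j]) D0) (by
      rw [← sum_div, div_le_one D0, sum_add_distrib, sum_const, card_univ, Fintype.card_fin,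
        nsmul_eq_mul]
      linarith)
  simp only [div_mul_eq_mul_div] at hle
  rw [← sum_div, div_le_iff₀ D0] at hle
  have a := h2 e (subset_convexHull ℝ S he)
  rw [hf] at a
  have b : ∑ j, e j * φ j ≤ ∑ j, (φ j + τ) * e j := sum_le_sum fun j _ => by
    nlinarith [mul_nonneg τ0.le (hS e he j)]
  nlinarith

/-- The `k`-th coordinate, or zero out of range. -/
noncomputable def co (k : ℕ) : E n →ₗ[ℝ] ℝ :=
  if h : k < n then (EuclideanSpace.proj (⟨k, h⟩ : Fin n) : E n →L[ℝ] ℝ) else 0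

/-- The state of the damped filter. -/
noncomputable def als (δ : ℝ) (v : ℕ → E d) : ℕ → E n →ₗ[ℝ] E d
  | 0 => 0
  | k + 1 => als δ v k + (co k - δ • (innerₗ (E d) (v k) ∘ₗ als δ v k)).smulRight (v k)

lemma als_succ (δ : ℝ) (v : ℕ → E d) (k : ℕ) (x : E n) :
    als δ v (k + 1) x = als δ v k x + (co k x - δ * ⟪v k, als δ v k x⟫_ℝ) • v k := by
  simp [als]

lemma co_mask (k s : ℕ) (x : E n) : co k (mask s x) = if k < s then co k x else 0 := by
  unfold co
  split_ifs with h1 h2 h2 <;> simp [mask, h2]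

lemma sum_co (t : ℕ) (x : E n) : ∑ k ∈ range t, co k x ^ 2 ≤ ‖x‖ ^ 2 := by
  have e : ∑ k ∈ range n, co k x ^ 2 = ‖x‖ ^ 2 := by
    rw [EuclideanSpace.real_norm_sq_eq, ← Fin.sum_univ_eq_sum_range (fun k => co k x ^ 2)]
    simp [co]
  rcases le_total t n with h | h
  · rw [← e]
    exact sum_le_sum_of_subset_of_nonneg (range_mono h) fun _ _ _ => sq_nonneg _
  · rw [← e]
    refine le_of_eq (sum_subset (range_mono h) fun k _ hk => ?_).symm
    rw [mem_range] at hk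
    simp [co, hk]

lemma als_energy {δ : ℝ} (h1 : δ ≤ 1 / 4) {v : ℕ → E d} (hv : ∀ k, ‖v k‖ ≤ 1)
    (t : ℕ) (x : E n) :
    δ * ‖als δ v t x‖ ^ 2 + ∑ k ∈ range t, (δ * ⟪v k, als δ v k x⟫_ℝ) ^ 2 ≤ 3 * ‖x‖ ^ 2 := by
  have : δ * ‖als δ v t x‖ ^ 2 + ∑ k ∈ range t, (δ * ⟪v k, als δ v k x⟫_ℝ) ^ 2
      ≤ 3 * ∑ k ∈ range t, co k x ^ 2 := by
    induction t with
    | zero => simp [als]
    | succ t ih =>
      rw [sum_range_succ, sum_range_succ, als_succ, norm_add_sq_real, real_inner_smul_right,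
        real_inner_comm (v t) (als δ v t x), norm_smul, mul_pow, Real.norm_eq_abs, sq_abs]
      generalize ⟪v t, als δ v t x⟫_ℝ = a at *
      generalize co t x = ξ at *
      have a1 : ‖v t‖ ^ 2 ≤ 1 := pow_le_one₀ (norm_nonneg _) (hv t)
      have a2 : δ * ((ξ - δ * a) ^ 2 * ‖v t‖ ^ 2) ≤ (1 / 4) * (ξ - δ * a) ^ 2 :=
        mul_le_mul h1 (mul_le_of_le_one_right (sq_nonneg _) a1) (by positivity) (by norm_num)
      nlinarith [sq_nonneg (ξ + δ * a), sq_nonneg (2 * ξ - δ * a)]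
  linarith [sum_co t x]

lemma als_mask (δ : ℝ) (v : ℕ → E d) {t s : ℕ} (h : t ≤ s) (x : E n) :
    als δ v t (mask s x) = als δ v t x := by
  induction t with
  | zero => simp [als]
  | succ t ih => rw [als_succ, als_succ, ih (by omega), co_mask, if_pos (by omega)]

lemma als_zero (δ : ℝ) (v : ℕ → E d) {s t : ℕ} (h : s ≤ t) (x : E n) (hx : mask s x = x)
    (h0 : als δ v s x = 0) : als δ v t x = 0 := by
  induction t, h using Nat.le_induction with
  | base => exact h0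
  | succ t ht ih =>
    rw [als_succ, ih, ← hx, co_mask, if_neg (by omega)]
    simp

lemma dual_hs (ℓ : E n →ₗ[ℝ] ℝ) {c : ℝ} (hc : 0 ≤ c) (h : ∀ x, ℓ x ^ 2 ≤ c * ‖x‖ ^ 2) :
    ∑ j, ℓ (ee j) ^ 2 ≤ c := by
  have a := h (WithLp.toLp 2 fun j => ℓ (ee j))
  rw [EuclideanSpace.real_norm_sq_eq] at a
  have b : ℓ (WithLp.toLp 2 fun j => ℓ (ee j)) = ∑ j, ℓ (ee j) ^ 2 := by
    conv_lhs => rw [expand (WithLp.toLp 2 fun j => ℓ (ee j))]
    simp [map_sum, sq]
  rw [b] at a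
  by_contra hn
  have := not_le.1 hn
  nlinarith

lemma rows_cut {w : Fin n → ℝ} (hw : ∀ j, 0 ≤ w j) (hw1 : ∑ j, w j ≤ 1)
    (ℓ : Fin n → E n →ₗ[ℝ] ℝ) {a b r : ℝ} (ha : 0 ≤ a) (hr : 0 < r) (har : 8 * a ≤ r ^ 2)
    (h1 : ∀ k x, ℓ k x ^ 2 ≤ a * ‖x‖ ^ 2) (hb : 0 ≤ b) (h2 : ∀ j, ∑ k, ℓ k (ee j) ^ 2 ≤ b) :
    Cut w {x | ∀ k, |ℓ k x| ≤ r} (a * b / r ^ 4) := by
  have nrm : ∀ k x, ‖(ℓ k).smulRight (ee k) x‖ = |ℓ k x| := fun k x => by
    rw [LinearMap.smulRight_apply, norm_smul, norm_ee, mul_one, Real.norm_eq_abs]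
  have hsk : ∀ k, hs ((ℓ k).smulRight (ee k)) ≤ a := fun k => by
    simp only [hs, nrm, sq_abs]
    exact dual_hs _ ha (h1 k)
  refine (Cut.biInter univ fun k _ => Cut.single (w := w) ((ℓ k).smulRight (ee k)) hr
    (by linarith [hsk k])).mono (fun x hx k => ?_) ?_
  · rw [← nrm]
    exact hx k (mem_univ k)
  · rw [← sum_div]
    refine div_le_div_of_nonneg_right ?_ (by positivity)
    refine (sum_le_sum fun k _ => mul_le_mul_of_nonneg_right (hsk k) (hsw_nonneg hw _)).trans ?_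
    rw [← mul_sum]
    refine mul_le_mul_of_nonneg_left ?_ ha
    simp only [hsw, nrm, sq_abs]
    rw [sum_comm]
    calc ∑ j, ∑ k, w j * ℓ k (ee j) ^ 2 ≤ ∑ j, w j * b := sum_le_sum fun j _ => by
          rw [← mul_sum]
          exact mul_le_mul_of_nonneg_left (h2 j) (hw j)
      _ ≤ b := by rw [← sum_mul]; exact mul_le_of_le_one_left hb hw1

/-- A symmetric convex set admitting cheap cuts for all weights carries a mixture of states with
small shift energy in each coordinate direction. -/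
lemma exists_mixture (C : Set (E n))
    (hC : ∀ w : Fin n → ℝ, (∀ j, 0 < w j) → ∑ j, w j ≤ 1 → Cut w C 1) :
    ∃ (Ω : Type) (_ : Fintype Ω) (f : Ω → E n → ℝ), (∀ ω, MemLp (f ω) 2 volume) ∧
      (∀ ω x, 0 ≤ f ω x) ∧ ∑ ω, ∫ x, f ω x ^ 2 = 1 ∧ (∀ ω x, f ω x ≠ 0 → x ∈ C) ∧
      ∀ j, ∑ ω, ∫ x, (f ω (x + (6 : ℝ) • (1 / 500 : ℝ) • ee j) - f ω x) ^ 2 ≤ 1 / 36 := by
  obtain ⟨x, hx, hlt⟩ := minimax {e | ∃ f : E n → ℝ, MemLp f 2 volume ∧ (∀ x, 0 ≤ f x) ∧
      ∫ x, f x ^ 2 = 1 ∧ (∀ x, f x ≠ 0 → x ∈ C) ∧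
      ∀ j, e j = ∫ x, (f (x + (6 : ℝ) • (1 / 500 : ℝ) • ee j) - f x) ^ 2}
    (by
      rintro e ⟨f, -, -, -, -, he⟩ j
      rw [he]
      exact integral_nonneg fun x => sq_nonneg _)
    (c := 1 / 40) (c' := 1 / 36) (by norm_num) (by norm_num) (by
      intro w hw0 hw1
      obtain ⟨ι, _, M, h1, h2, h3⟩ := hC w hw0 hw1
      obtain ⟨f, f1, f2, f3, f4, f5⟩ := exists_state M h1
      refine ⟨_, ⟨f, f1, f2, f3, fun x hx => h3 x (f4 x hx), fun j => rfl⟩, ?_⟩
      have a : ∀ j, ∫ x, (f (x + (6 : ℝ) • (1 / 500 : ℝ) • ee j) - f x) ^ 2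
          ≤ 18 / 250000 + (5544 / 250000) * ∑ u, hs (M u) * ‖M u (ee j)‖ ^ 2 := by
        intro j
        have e1 : ∀ u, ‖M u ((3 / 500 : ℝ) • ee j)‖ ^ 2 = (9 / 250000) * ‖M u (ee j)‖ ^ 2 := by
          intro u
          rw [map_smul, norm_smul, mul_pow, Real.norm_eq_abs, sq_abs]
          norm_num
        have := f5 ((3 / 500 : ℝ) • ee j) fun u => by
          rw [e1]
          have : ‖M u (ee j)‖ ^ 2 ≤ hs (M u) :=
            single_le_sum (f := fun j => ‖M u (ee j)‖ ^ 2) (fun _ _ => sq_nonneg _) (mem_univ j)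
          nlinarith [sq_nonneg ‖M u (ee j)‖]
        rw [show (3 / 500 : ℝ) • ee j + (3 / 500 : ℝ) • ee j
          = (6 : ℝ) • (1 / 500 : ℝ) • ee j by module, norm_smul, norm_ee] at this
        refine this.trans (le_of_eq ?_)
        simp only [e1, mul_sum]
        rw [Real.norm_eq_abs, mul_one, sq_abs]
        congr 1
        · norm_num
        · exact sum_congr rfl fun u _ => by ring
      have b : ∑ j, w j * ∑ u, hs (M u) * ‖M u (ee j)‖ ^ 2 = ∑ u, hs (M u) * hsw w (M u) := by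
        simp only [hsw, mul_sum]
        rw [sum_comm]
        exact sum_congr rfl fun u _ => sum_congr rfl fun j _ => by ring
      calc _ ≤ ∑ j, w j * (18 / 250000 + (5544 / 250000) * ∑ u, hs (M u) * ‖M u (ee j)‖ ^ 2) :=
            sum_le_sum fun j _ => mul_le_mul_of_nonneg_left (a j) (hw0 j).le
        _ = (∑ j, w j) * (18 / 250000)
            + (5544 / 250000) * ∑ j, w j * ∑ u, hs (M u) * ‖M u (ee j)‖ ^ 2 := by
            rw [sum_mul, mul_sum, ← sum_add_distrib]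
            exact sum_congr rfl fun j _ => by ring
        _ ≤ 1 / 40 := by rw [b]; linarith)
  obtain ⟨Ω, _, p, z, p0, p1, hz, hsum⟩ := mem_convexHull_iff_exists_fintype.1 hx
  choose f f1 f2 f3 f4 f5 using hz
  refine ⟨Ω, inferInstance, fun ω x => √(p ω) * f ω x, fun ω => (f1 ω).const_mul _,
    fun ω x => mul_nonneg (Real.sqrt_nonneg _) (f2 ω x), ?_,
    fun ω x h => f4 ω x (right_ne_zero_of_mul h), fun j => ?_⟩
  · simp only [mul_pow, integral_const_mul, f3, mul_one, Real.sq_sqrt (p0 _), p1]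
  · simp only [← mul_sub, mul_pow, integral_const_mul, Real.sq_sqrt (p0 _), ← f5]
    have := congrFun hsum j
    simp only [Finset.sum_apply, Pi.smul_apply, smul_eq_mul] at this
    rw [this]
    exact (hlt j).le

theorem signs_nat : ∃ K : ℝ, ∀ (d n : ℕ) (v : ℕ → E d), (∀ k, ‖v k‖ ≤ 1) →
    ∃ ε : ℕ → ℝ, (∀ k < n, ε k = 1 ∨ ε k = -1) ∧
      ∀ t ≤ n, ‖∑ k ∈ range t, ε k • v k‖ ≤ K * √d := by
  obtain ⟨δ, hδ⟩ : ∃ δ : ℝ, δ = 1 / (288 * 500 ^ 4) := ⟨_, rfl⟩
  have δ0 : 0 < δ := by rw [hδ]; positivity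
  have δ1 : δ ≤ 1 / 4 := by rw [hδ]; norm_num
  refine ⟨500 * √(3 / δ * 450000), fun d n v hv => ?_⟩
  set Z : ℕ → E n →ₗ[ℝ] E d := als δ v with hZ
  set ℓ : ℕ → E n →ₗ[ℝ] ℝ := fun k => (-500 * δ) • (innerₗ (E d) (v k) ∘ₗ Z k) with hℓ
  have ℓe : ∀ k x, ℓ k x = -500 * (δ * ⟪v k, Z k x⟫_ℝ) := fun k x => by
    simp [hℓ, mul_assoc]
  set R : ℝ := √(3 / δ * (450000 * d)) with hR
  set C : Set (E n) := {x | (∀ k < n, |ℓ k x| ≤ 1 / 2) ∧ ∀ t ≤ n, ‖Z t x‖ ≤ R} with hC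
  have ZB : ∀ t x, ‖Z t x‖ ^ 2 ≤ 3 / δ * ‖x‖ ^ 2 := fun t x => by
    have := als_energy δ1 hv t x
    have p : 0 ≤ ∑ k ∈ range t, (δ * ⟪v k, als δ v k x⟫_ℝ) ^ 2 :=
      sum_nonneg fun _ _ => sq_nonneg _
    rw [div_mul_eq_mul_div, le_div_iff₀ δ0]
    linarith
  obtain ⟨Ω, _, f, f1, f2, f3, f4, f5⟩ := exists_mixture C (by
    intro w hw0 hw1
    have c1 := flag hw0 hw1 Z (3 / δ) ZB (by positivity) (fun t x => als_mask δ v le_rfl x)
      (fun s t h x => als_zero δ v h x) n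
    have c2 := rows_cut (fun j => (hw0 j).le) hw1 (fun k : Fin n => ℓ k)
      (a := 500 ^ 2 * (3 * δ)) (b := 500 ^ 2 * 3) (r := 1 / 2) (by positivity) (by norm_num)
      (by rw [hδ]; norm_num)
      (fun k x => by
        have a : ⟪v k, Z k x⟫_ℝ ^ 2 ≤ ‖Z k x‖ ^ 2 := by
          rw [sq_le_sq, abs_norm]
          exact (abs_real_inner_le_norm _ _).trans
            (mul_le_of_le_one_left (norm_nonneg _) (hv k))
        have b := mul_le_mul_of_nonneg_left (a.trans (ZB k x)) (sq_nonneg δ)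
        have e : δ ^ 2 * (3 / δ * ‖x‖ ^ 2) = 3 * δ * ‖x‖ ^ 2 := by field_simp
        rw [ℓe]
        nlinarith)
      (by positivity)
      (fun j => by
        have a := als_energy δ1 hv n (ee j)
        rw [norm_ee] at a
        have p : 0 ≤ δ * ‖als δ v n (ee j)‖ ^ 2 := by positivity
        rw [Fin.sum_univ_eq_sum_range (fun k => ℓ k (ee j) ^ 2)]
        simp only [ℓe, mul_pow (-500 : ℝ), ← mul_sum, hZ]
        linarith)
    refine (c2.inter c1).mono ?_ (by rw [hδ]; norm_num)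
    rintro x ⟨x1, x2⟩
    exact ⟨fun k hk => x1 ⟨k, hk⟩, fun t ht => Real.le_sqrt_of_sq_le (x2 t ht)⟩)
  have Cc : Convex ℝ C := by
    rintro x ⟨x1, x2⟩ y ⟨y1, y2⟩ a b ha hb hab
    refine ⟨fun k hk => ?_, fun t ht => ?_⟩
    · rw [map_add, map_smul, map_smul, smul_eq_mul, smul_eq_mul]
      refine (abs_add_le _ _).trans ?_
      rw [abs_mul, abs_mul, abs_of_nonneg ha, abs_of_nonneg hb]
      nlinarith [mul_le_mul_of_nonneg_left (x1 k hk) ha, mul_le_mul_of_nonneg_left (y1 k hk) hb]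
    · rw [map_add, map_smul, map_smul]
      refine (norm_add_le _ _).trans ?_
      rw [norm_smul, norm_smul, Real.norm_of_nonneg ha, Real.norm_of_nonneg hb]
      calc _ ≤ a * R + b * R := add_le_add (mul_le_mul_of_nonneg_left (x2 t ht) ha)
            (mul_le_mul_of_nonneg_left (y2 t ht) hb)
        _ = R := by rw [← add_mul, hab, one_mul]
  set U : ℕ → E n := fun j => if h : j < n then (1 / 500 : ℝ) • ee ⟨j, h⟩ else 0 with hU
  obtain ⟨ζ, c, c1, c2, c3⟩ := split (μ := volume) U ℓ n Ω f (fun _ => C) f1 f2 f3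
    (fun _ => Cc)
    (fun _ x hx => ⟨fun k hk => by rw [map_neg, abs_neg]; exact hx.1 k hk,
      fun t ht => by rw [map_neg, norm_neg]; exact hx.2 t ht⟩) f4
    (fun j hj => by simpa only [hU, dif_pos hj] using f5 ⟨j, hj⟩)
    (fun k j hkj hj => by
      have : mask k (ee (⟨j, hj⟩ : Fin n)) = 0 := by
        rw [mask, diag_ee, if_neg (by simpa using hkj), zero_smul]
      rw [ℓe]
      simp only [hU, dif_pos hj, hZ, map_smul]
      rw [← als_mask δ v le_rfl, this]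
      simp)
    (fun k hk _ x hx => hx.1 k hk)
  set x := ∑ j ∈ range n, ζ j • U j with hx
  have xC : x ∈ C := by
    classical
    have := Cc.sum_mem (t := univ) (w := fun ω => ∫ x, f ω x ^ 2)
      (z := fun ω => if ∫ x, f ω x ^ 2 = 0 then 0 else c ω)
      (fun ω _ => integral_nonneg fun x => sq_nonneg _) f3 (fun ω _ => by
        split_ifs with h
        · exact ⟨fun k _ => by simp, fun t _ => by
            rw [map_zero, norm_zero]
            exact Real.sqrt_nonneg _⟩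
        · exact c1 ω h)
    rw [← c2]
    convert this using 2 with ω
    split_ifs with h
    · simp [h]
    · rfl
  have cx : ∀ k < n, co k x = (1 / 500) * ζ k := fun k hk => by
    rw [hx, map_sum, sum_eq_single k]
    · simp [hU, hk, co, ee, mul_comm]
    · intro j hj hjk
      rw [mem_range] at hj
      simp [hU, hj, co, hk, ee, Fin.ext_iff, hjk.symm]
    · intro h
      exact absurd (mem_range.2 hk) h
  have key : ∀ t ≤ n, ∑ k ∈ range t, (ζ k + ℓ k x) • v k = (500 : ℝ) • Z t x := by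
    intro t ht
    induction t with
    | zero => simp [hZ, als]
    | succ t ih =>
      rw [sum_range_succ, ih (by omega), ℓe]
      simp only [hZ]
      rw [als_succ, cx t (by omega)]
      module
  refine ⟨fun k => ζ k + ℓ k x, c3, fun t ht => ?_⟩
  rw [key t ht, norm_smul, Real.norm_of_nonneg (by norm_num), mul_assoc,
    ← Real.sqrt_mul (by positivity), mul_assoc]
  exact mul_le_mul_of_nonneg_left (xC.2 t ht) (by norm_num)

end Vale.Agent.P262
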