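import Mathlib
import Vale.Agent.P262.Signs

/-! The signed bound indexed by `Fin N`, and the transference to rearrangements. -/

namespace Vale.Agent.P262

open Finset

theorem signs_fin : ∃ K : ℝ, ∀ (d N : ℕ) (v : Fin N → E d), (∀ i, ‖v i‖ ≤ 1) →
    ∃ ε : Fin N → ℝ, (∀ i, ε i = 1 ∨ ε i = -1) ∧
      ∀ k : ℕ, ‖∑ i : Fin N with i.val < k, ε i • v i‖ ≤ K * √d := by
  obtain ⟨K, hK⟩ := signs_nat
  refine ⟨K, fun d N v hv => ?_⟩
  obtain ⟨ε, h1, h2⟩ := hK d N (fun k => if h : k < N then v ⟨k, h⟩ else 0) (fun k => by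
    split_ifs
    · exact hv _
    · simp)
  refine ⟨fun i => ε i, fun i => h1 i i.2, fun k => ?_⟩
  have := h2 (min k N) (min_le_right _ _)
  refine le_of_eq_of_le (congrArg norm ?_) this
  rw [sum_filter, show (∑ i : Fin N, if (i : ℕ) < k then ε i • v i else 0)
      = ∑ i : Fin N, (fun j : ℕ => if j < k then ε j • (if h : j < N then v ⟨j, h⟩ else 0)
        else 0) i from sum_congr rfl fun i _ => by simp,
    Fin.sum_univ_eq_sum_range (fun j : ℕ => if j < k then
      ε j • (if h : j < N then v ⟨j, h⟩ else 0) else 0), ← sum_filter]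
  congr 1
  ext j
  simp [and_comm]

theorem transfer {F : Type*} [NormedAddCommGroup F] [NormedSpace ℝ F] {N : ℕ} (v : Fin N → F)
    (h0 : ∑ i, v i = 0) (B : ℝ)
    (hB : ∀ π : Equiv.Perm (Fin N), ∃ ε : Fin N → ℝ, (∀ i, ε i = 1 ∨ ε i = -1) ∧
      ∀ k : ℕ, ‖∑ i : Fin N with i.val < k, ε i • v (π i)‖ ≤ B) :
    ∃ π : Equiv.Perm (Fin N), ∀ k : ℕ, ‖∑ i : Fin N with i.val < k, v (π i)‖ ≤ B := by
  classical
  set β : Equiv.Perm (Fin N) → ℝ := fun π => (range (N + 1)).sup' nonempty_range_add_one
    fun k => ‖∑ i : Fin N with i.val < k, v (π i)‖ with hβ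
  have le_β : ∀ (π : Equiv.Perm (Fin N)) (k : ℕ),
      ‖∑ i : Fin N with i.val < k, v (π i)‖ ≤ β π := by
    intro π k
    have : (univ.filter fun i : Fin N => (i : ℕ) < k)
        = univ.filter fun i : Fin N => (i : ℕ) < min k N := by
      ext i
      simp
    rw [this]
    exact le_sup' (fun k => ‖∑ i : Fin N with i.val < k, v (π i)‖)
      (mem_range.2 (Nat.lt_succ_of_le (min_le_right _ _)))
  obtain ⟨π, -, hπ⟩ := exists_min_image univ β univ_nonempty
  obtain ⟨ε, h1, h2⟩ := hB π
  suffices β π ≤ B from ⟨π, fun k => (le_β π k).trans this⟩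
  set key : Fin N → ℕ := fun i => if ε i = 1 then i else 2 * N - i with hkey
  have kinj : Function.Injective key := by
    intro i j h
    simp only [hkey] at h
    have := i.2
    have := j.2
    ext
    split_ifs at h <;> omega
  set σ := Tuple.sort key with hσ
  have sm : StrictMono (key ∘ σ) :=
    (Tuple.monotone_sort key).strictMono_of_injective (kinj.comp σ.injective)
  have tot : ∑ i, v (π i) = 0 := by rw [Equiv.sum_comp π v, h0]
  have plus : ∀ m : ℕ, ‖∑ i : Fin N with ε i = 1 ∧ i.val < m, v (π i)‖ ≤ (β π + B) / 2 := by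
    intro m
    have e : ∑ i : Fin N with ε i = 1 ∧ i.val < m, v (π i)
        = (1 / 2 : ℝ) • (∑ i : Fin N with i.val < m, v (π i)
          + ∑ i : Fin N with i.val < m, ε i • v (π i)) := by
      simp only [sum_filter, ← sum_add_distrib, smul_sum]
      refine sum_congr rfl fun i _ => ?_
      by_cases a : (i : ℕ) < m
      · rcases h1 i with b | b
        · simp only [a, b, and_self, if_true]
          module
        · have : ¬ ε i = 1 := by rw [b]; norm_num
          simp [a, b]
          norm_num
      · simp [a]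
    rw [e, norm_smul, Real.norm_of_nonneg (by norm_num)]
    linarith [norm_add_le (∑ i : Fin N with i.val < m, v (π i))
      (∑ i : Fin N with i.val < m, ε i • v (π i)), le_β π m, h2 m]
  have minus : ∀ m : ℕ, ‖∑ i : Fin N with ¬ ε i = 1 ∧ i.val < m, v (π i)‖
      ≤ (β π + B) / 2 := by
    intro m
    have e : ∑ i : Fin N with ¬ ε i = 1 ∧ i.val < m, v (π i)
        = (1 / 2 : ℝ) • (∑ i : Fin N with i.val < m, v (π i)
          - ∑ i : Fin N with i.val < m, ε i • v (π i)) := by
      simp only [sum_filter, ← sum_sub_distrib, smul_sum]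
      refine sum_congr rfl fun i _ => ?_
      by_cases a : (i : ℕ) < m
      · rcases h1 i with b | b
        · simp [a, b]
        · have : ¬ ε i = 1 := by rw [b]; norm_num
          rw [if_pos ⟨this, a⟩, if_pos a, if_pos a, b]
          module
      · simp [a]
    rw [e, norm_smul, Real.norm_of_nonneg (by norm_num)]
    linarith [norm_sub_le (∑ i : Fin N with i.val < m, v (π i))
      (∑ i : Fin N with i.val < m, ε i • v (π i)), le_β π m, h2 m]
  have thr : ∀ c : ℕ, ‖∑ j : Fin N with key j < c, v (π j)‖ ≤ (β π + B) / 2 := by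
    intro c
    by_cases hc : c ≤ N
    · refine le_of_eq_of_le (congrArg norm (sum_congr ?_ fun _ _ => rfl)) (plus c)
      ext j
      have := j.2
      simp only [mem_filter, mem_univ, true_and, hkey]
      split_ifs with h
      · simp [h]
      · simp only [h, false_and, iff_false]
        omega
    · have e := sum_filter_add_sum_filter_not univ (fun j => key j < c) fun j => v (π j)
      rw [tot, add_eq_zero_iff_eq_neg] at e
      rw [e, norm_neg]
      refine le_of_eq_of_le (congrArg norm (sum_congr ?_ fun _ _ => rfl)) (minus (2 * N + 1 - c))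
      ext j
      have := j.2
      simp only [mem_filter, mem_univ, true_and, hkey]
      split_ifs with h
      · simp only [h, not_true, false_and, iff_false]
        omega
      · simp only [h, not_false_iff, true_and]
        omega
  have new : β (σ.trans π) ≤ (β π + B) / 2 := by
    refine sup'_le _ _ fun k _ => ?_
    obtain ⟨c, hc⟩ : ∃ c : ℕ, ∀ i : Fin N, (i : ℕ) < k ↔ key (σ i) < c := by
      by_cases hk : k < N
      · exact ⟨key (σ ⟨k, hk⟩), fun i => (sm.lt_iff_lt (a := i) (b := ⟨k, hk⟩)).symm⟩
      · refine ⟨2 * N + 1, fun i => ?_⟩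
        have := i.2
        have := (σ i).2
        simp only [hkey]
        split_ifs <;> omega
    refine le_of_eq_of_le (congrArg norm ?_) (thr c)
    rw [sum_filter, sum_filter, ← Equiv.sum_comp σ fun j => if key j < c then v (π j) else 0]
    exact sum_congr rfl fun i _ => by simp [hc]
  linarith [hπ (σ.trans π) (mem_univ _)]

end Vale.Agent.P262
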